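import Vale.Agent.P157.RS.Asm.Defs
import Vale.Agent.P157.RS.Sample
import Vale.Agent.P157.Sphere.Main

/-!
# P157, RS assembly: a large sample of the sphere
-/

noncomputable section

open MeasureTheory ProbabilityTheory Real Filter Topology Set
open scoped BigOperators

namespace P157.RS.Asm

open Vale.Agent.P150 (gauss)
open P157.Sphere (sph)

/-- A unit vector, changed only on a null set of the sphere measure. -/
def nrm {N : ℕ} (x : Fin N → ℝ) (i : Fin N) : ℝ :=
  if dot x x = 1 then x i else if (i : ℕ) = 0 then 1 else 0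

/-- A sample of unit vectors. -/
def unitS {N K : ℕ} (θ : Fin (K + 1) → Fin N → ℝ) (y : Fin (K + 1)) : Fin N → ℝ := nrm (θ y)

/-- The law of a sample. -/
def samp (N K : ℕ) : Measure (Fin (K + 1) → Fin N → ℝ) := Measure.pi fun _ => sph (Fin N)

lemma dot_comm_avg {N : ℕ} (a b : Fin N → ℝ) : dot a b = dot b a :=
  Finset.sum_congr rfl fun i _ => mul_comm _ _

lemma measurable_nrm {N : ℕ} : Measurable (nrm : (Fin N → ℝ) → Fin N → ℝ) := by
  refine measurable_pi_lambda _ fun i => ?_
  exact Measurable.ite (measurableSet_eq_fun (by unfold dot; fun_prop) measurable_const)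
    (measurable_pi_apply i) measurable_const

lemma nrm_unit {N : ℕ} (hN : 0 < N) (x : Fin N → ℝ) : dot (nrm x) (nrm x) = 1 := by
  by_cases h : dot x x = 1
  · have : nrm x = x := funext fun i => by simp [nrm, h]
    rw [this, h]
  · have : nrm x = fun i : Fin N => if (i : ℕ) = 0 then (1 : ℝ) else 0 :=
      funext fun i => by simp [nrm, h]
    rw [this, dot, Finset.sum_eq_single (⟨0, hN⟩ : Fin N)]
    · simp
    · intro b _ hb
      have : (b : ℕ) ≠ 0 := fun h0 => hb (Fin.ext h0)
      simp [this]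
    · simp

lemma abs_nrm_le {N : ℕ} (hN : 0 < N) (x : Fin N → ℝ) (i : Fin N) : |nrm x i| ≤ 1 :=
  cbd_unit (θ := fun _ : Fin 1 => nrm x) (fun _ => nrm_unit hN x) 0 i

lemma ae_nrm {N : ℕ} (hN : 0 < N) : ∀ᵐ x ∂sph (Fin N), nrm x = x := by
  refine (ae_map_iff Sphere.measurable_dir.aemeasurable
    (measurableSet_eq_fun (f := nrm) (g := fun x => x) measurable_nrm measurable_id)).2 ?_
  have h0 : ∀ᵐ z ∂gauss (Fin N), z ⟨0, hN⟩ ≠ 0 := by
    have h : ∀ᵐ x ∂gaussianReal 0 1, x ≠ (0 : ℝ) := by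
      haveI := noAtoms_gaussianReal (μ := 0) (v := 1) one_ne_zero
      exact Measure.ae_ne _ _
    exact (measurePreserving_eval (fun _ : Fin N => gaussianReal 0 1) ⟨0, hN⟩).quasiMeasurePreserving.tendsto_ae.eventually h
  filter_upwards [h0] with z hz
  have hr : 0 < Sphere.rad z := by
    rw [rad_eq]
    exact lt_of_lt_of_le (mul_self_pos.2 hz) (Finset.single_le_sum
      (f := fun i => z i * z i) (fun i _ => mul_self_nonneg _) (Finset.mem_univ _))
  have hu : dot (Sphere.dir z) (Sphere.dir z) = 1 := by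
    have e : ∑ i, Sphere.dir z i * Sphere.dir z i = (∑ i, z i * z i) / Sphere.rad z := by
      rw [Finset.sum_div]
      refine Finset.sum_congr rfl fun i _ => ?_
      rw [Sphere.dir, div_mul_div_comm, Real.mul_self_sqrt hr.le]
    unfold dot
    rw [e]
    rw [rad_eq] at hr ⊢
    unfold dot at hr ⊢
    exact div_self hr.ne'
  exact funext fun i => by simp [nrm, hu]

lemma integrable_exp_sum {ι : Type*} [Fintype ι] (c : ℝ) :
    Integrable (fun g : ι → ℝ => exp (c * ∑ i, |g i|)) (gauss ι) := by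
  have h1 : Integrable (fun x : ℝ => exp (c * |x|)) (gaussianReal 0 1) := by
    refine ((integrable_exp_mul_gaussianReal c).add (integrable_exp_mul_gaussianReal (-c))).mono'
      (by fun_prop : Continuous fun x : ℝ => exp (c * |x|)).aestronglyMeasurable
      (ae_of_all _ fun x => ?_)
    rw [Real.norm_eq_abs, abs_of_pos (exp_pos _), Pi.add_apply]
    rcases le_total 0 x with h | h
    · rw [abs_of_nonneg h]; linarith [exp_pos (-c * x)]
    · rw [abs_of_nonpos h, mul_neg, ← neg_mul]; linarith [exp_pos (c * x)]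
  refine (Integrable.fintype_prod (f := fun _ : ι => fun x : ℝ => exp (c * |x|))
    fun _ => h1).congr (ae_of_all _ fun g => ?_)
  simp only [Finset.mul_sum, Real.exp_sum]

/-- The exponent of a pair. -/
def expo {N : ℕ} (r ρ ν : ℝ) (h : Fin N ⊕ Fin N → ℝ) (p : (Fin N → ℝ) × (Fin N → ℝ)) : ℝ :=
  √(r * N) * (dot p.1 (fun i => h (Sum.inl i))
    + dot p.2 (fun i => ρ * h (Sum.inl i) + √(1 - ρ ^ 2) * h (Sum.inr i)))
    + ν * N * dot p.1 p.2

lemma abs_dot_nrm_le {N : ℕ} (hN : 0 < N) (x b : Fin N → ℝ) : |dot (nrm x) b| ≤ ∑ i, |b i| :=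
  (Finset.abs_sum_le_sum_abs _ _).trans (Finset.sum_le_sum fun i _ => by
    rw [abs_mul]; exact mul_le_of_le_one_left (abs_nonneg _) (abs_nrm_le hN x i))

lemma abs_expo_le {N : ℕ} (hN : 0 < N) {r ρ ν Λ : ℝ} (hρ : ρ ∈ Icc (-1 : ℝ) 1) (hν : |ν| ≤ Λ)
    (h : Fin N ⊕ Fin N → ℝ) (x y : Fin N → ℝ) :
    |expo r ρ ν h (nrm x, nrm y)| ≤ 2 * √(r * N) * (∑ i, |h i|) + Λ * N := by
  unfold expo
  have hs : √(1 - ρ ^ 2) ≤ 1 := Real.sqrt_le_one.2 (by nlinarith)
  have ha : |ρ| ≤ 1 := abs_le.2 ⟨hρ.1, hρ.2⟩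
  have h1 : |dot (nrm x) fun i => h (Sum.inl i)| ≤ ∑ i, |h i| :=
    (abs_dot_nrm_le hN x _).trans (by
      rw [Fintype.sum_sum_type]
      exact le_add_of_nonneg_right (by positivity))
  have h2 : |dot (nrm y) fun i => ρ * h (Sum.inl i) + √(1 - ρ ^ 2) * h (Sum.inr i)| ≤ ∑ i, |h i| :=
    (abs_dot_nrm_le hN y _).trans (by
      rw [Fintype.sum_sum_type, ← Finset.sum_add_distrib]
      refine Finset.sum_le_sum fun i _ => (abs_add_le _ _).trans (add_le_add ?_ ?_)
      · rw [abs_mul]; exact mul_le_of_le_one_left (abs_nonneg _) ha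
      · rw [abs_mul, abs_of_nonneg (sqrt_nonneg _)]; exact mul_le_of_le_one_left (abs_nonneg _) hs)
  have h3 : |dot (nrm x) (nrm y)| ≤ 1 :=
    abs_ovl_le (θ := ![nrm x, nrm y]) (fun k => by fin_cases k <;> simp [nrm_unit hN]) (0, 1)
  refine (abs_add_le _ _).trans (add_le_add ?_ ?_)
  · rw [abs_mul, abs_of_nonneg (sqrt_nonneg _),
      show 2 * √(r * N) * (∑ i, |h i|) = √(r * N) * ((∑ i, |h i|) + ∑ i, |h i|) by ring]
    exact mul_le_mul_of_nonneg_left ((abs_add_le _ _).trans (add_le_add h1 h2)) (sqrt_nonneg _)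
  · rw [abs_mul, abs_mul, abs_of_nonneg (Nat.cast_nonneg (α := ℝ) N)]
    calc |ν| * (N : ℝ) * |dot (nrm x) (nrm y)| ≤ |ν| * N * 1 :=
          mul_le_mul_of_nonneg_left h3 (by positivity)
      _ ≤ Λ * N := by rw [mul_one]; exact mul_le_mul_of_nonneg_right hν (Nat.cast_nonneg N)

lemma dot_pairVec_avg {N : ℕ} {Y : Type*} [Fintype Y] (θ : Y → Fin N → ℝ) (ρ : ℝ) (p : Y × Y)
    (h : Fin N ⊕ Fin N → ℝ) :
    dot (pairVec θ ρ p) h = dot (θ p.1) (fun i => h (Sum.inl i))
      + dot (θ p.2) (fun i => ρ * h (Sum.inl i) + √(1 - ρ ^ 2) * h (Sum.inr i)) := by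
  simp only [dot, pairVec, Fintype.sum_sum_type, Sum.elim_inl, Sum.elim_inr]
  rw [← Finset.sum_add_distrib, ← Finset.sum_add_distrib]
  exact Finset.sum_congr rfl fun i _ => by ring

section Gen

variable {E H : Type*} [MeasurableSpace E] [MeasurableSpace H] (μ : Measure E) [IsProbabilityMeasure μ]
  (η : Measure H) [IsProbabilityMeasure η]

omit [MeasurableSpace H] in
lemma abs_log_le_of_mem {x a : ℝ} (hx : x ∈ Icc (exp (-a)) (exp a)) : |log x| ≤ a := by
  rw [abs_le]
  exact ⟨by simpa using log_le_log (exp_pos _) hx.1,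
    by simpa using log_le_log ((exp_pos _).trans_le hx.1) hx.2⟩

/-- The mean of `exp` over all pairs of a sample. -/
lemma mean_pairs_le {G : E × E → ℝ} (hG : Measurable G) {A : ℝ} (hA : ∀ x, |G x| ≤ A) (K : ℕ) :
    ∫ θ, (∑ p : Fin (K + 1) × Fin (K + 1), exp (G (θ p.1, θ p.2))) / (((K : ℝ) + 1) * ((K : ℝ) + 1))
        ∂Measure.pi (fun _ : Fin (K + 1) => μ)
      ≤ (∫ p, exp (G p) ∂μ.prod μ) + exp A / ((K : ℝ) + 1) := by
  set Z := ∫ p, exp (G p) ∂μ.prod μ with hZ
  have hZ0 : 0 < Z := (exp_pos _).trans_le (le_integral_exp (μ.prod μ) hG hA)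
  set P := Measure.pi (fun _ : Fin (K + 1) => μ) with hP
  have hterm : ∀ p : Fin (K + 1) × Fin (K + 1), ∫ θ, exp (G (θ p.1, θ p.2)) ∂P
      ≤ Z + if p.1 = p.2 then exp A else 0 := by
    intro p
    by_cases h : p.1 = p.2
    · rw [if_pos h]
      have := integral_mono (μ := P) (f := fun θ => exp (G (θ p.1, θ p.2))) (g := fun _ => exp A)
        (integrable_of_abs_le (by fun_prop) fun θ => abs_exp_le (hA _)) (integrable_const _)
        fun θ => (exp_mem (hA _)).2
      simp only [integral_const, probReal_univ, one_smul] at this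
      linarith
    · rw [if_neg h, add_zero, hZ, ← map_eval_pair μ h,
        integral_map (by fun_prop) hG.exp.aestronglyMeasurable]
  rw [integral_div, integral_finsetSum _ fun p _ =>
    integrable_of_abs_le (by fun_prop) fun θ => abs_exp_le (hA _), div_le_iff₀ (by positivity)]
  refine (Finset.sum_le_sum fun p _ => hterm p).trans (le_of_eq ?_)
  rw [Finset.sum_add_distrib, Finset.sum_const, Finset.card_univ, nsmul_eq_mul,
    Fintype.card_prod, Fintype.card_fin, Fintype.sum_prod_type]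
  simp only [Finset.sum_ite_eq, Finset.mem_univ, if_true, Finset.sum_const, Finset.card_univ,
    nsmul_eq_mul, Fintype.card_fin]
  push_cast
  field_simp

/-- Pairs from a sample against the pair system, averaged over a field. -/
lemma pair_gen {G : H → E × E → ℝ} (hGm : Measurable fun q : H × (E × E) => G q.1 q.2)
    {A : H → ℝ} (hGA : ∀ h p, |G h p| ≤ A h) (hAl : Integrable A η)
    (hAi : Integrable (fun h => exp (2 * A h)) η) {K : ℕ}
    (hK : ∫ h, exp (2 * A h) ∂η ≤ (K : ℝ) + 1) :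
    ∃ Ψ : (Fin (K + 1) → E) → ℝ, Integrable Ψ (Measure.pi fun _ => μ) ∧ (∀ θ, 0 ≤ Ψ θ) ∧
      ∫ θ, Ψ θ ∂Measure.pi (fun _ => μ) ≤ 2 ∧
      ∀ θ, ∫ h, lse (fun p : Fin (K + 1) × Fin (K + 1) => G h (θ p.1, θ p.2)) ∂η - 2 * log (K + 1)
        ≤ ∫ h, log (∫ p, exp (G h p) ∂μ.prod μ) ∂η + Ψ θ := by
  set P := Measure.pi (fun _ : Fin (K + 1) => μ) with hP
  set n : ℝ := (K : ℝ) + 1 with hn
  have hn0 : 0 < n := by positivity
  set Z : H → ℝ := fun h => ∫ p, exp (G h p) ∂μ.prod μ with hZ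
  have hZm : Measurable Z := hGm.exp.stronglyMeasurable.integral_prod_right.measurable
  have hGmh : ∀ h, Measurable (G h) := fun h => hGm.comp (measurable_const.prodMk measurable_id)
  have hZge : ∀ h, exp (-A h) ≤ Z h := fun h => le_integral_exp (μ.prod μ) (hGmh h) (hGA h)
  have hZle : ∀ h, Z h ≤ exp (A h) := fun h => integral_exp_le (μ.prod μ) (hGmh h) (hGA h)
  have hZ0 : ∀ h, 0 < Z h := fun h => (exp_pos _).trans_le (hZge h)
  set S : (Fin (K + 1) → E) → H → ℝ :=
    fun θ h => (∑ p : Fin (K + 1) × Fin (K + 1), exp (G h (θ p.1, θ p.2))) / (n * n) with hS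
  have hcard : ((Fintype.card (Fin (K + 1) × Fin (K + 1)) : ℕ) : ℝ) = n * n := by simp [hn]
  have hSm : ∀ θ h, S θ h ∈ Icc (exp (-A h)) (exp (A h)) := fun θ h => by
    have := mean_exp_mem (h := fun p : Fin (K + 1) × Fin (K + 1) => G h (θ p.1, θ p.2)) (A := A h)
      (fun p => hGA h _)
    simpa [hS, hcard] using this
  have hSM : Measurable fun q : (Fin (K + 1) → E) × H => S q.1 q.2 := by
    refine Measurable.div_const (Finset.measurable_sum _ fun p _ => ?_) _
    exact (hGm.comp (measurable_snd.prodMk (((measurable_pi_apply p.1).comp measurable_fst).prodMk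
      ((measurable_pi_apply p.2).comp measurable_fst)))).exp
  have hSmeas : Measurable fun q : (Fin (K + 1) → E) × H => S q.1 q.2 / Z q.2 :=
    hSM.div (hZm.comp measurable_snd)
  have hSZ : ∀ θ h, S θ h / Z h ≤ exp (2 * A h) := fun θ h => by
    rw [div_le_iff₀ (hZ0 h)]
    calc S θ h ≤ exp (A h) := (hSm θ h).2
      _ = exp (2 * A h) * exp (-A h) := by rw [← exp_add]; ring_nf
      _ ≤ _ := mul_le_mul_of_nonneg_left (hZge h) (exp_pos _).le
  have hSnn : ∀ θ h, 0 ≤ S θ h / Z h := fun θ h =>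
    div_nonneg ((exp_pos _).le.trans (hSm θ h).1) (hZ0 h).le
  have hjoint : Integrable (fun q : (Fin (K + 1) → E) × H => S q.1 q.2 / Z q.2) (P.prod η) := by
    refine (hAi.comp_snd P).mono' hSmeas.aestronglyMeasurable (ae_of_all _ fun q => ?_)
    rw [Real.norm_eq_abs, abs_of_nonneg (hSnn _ _)]
    exact hSZ _ _
  refine ⟨fun θ => ∫ h, S θ h / Z h ∂η, hjoint.integral_prod_left,
    fun θ => integral_nonneg (hSnn θ), ?_, fun θ => ?_⟩
  · rw [integral_integral_swap hjoint]
    have hpt : ∀ h, ∫ θ, S θ h / Z h ∂P ≤ 1 + exp (2 * A h) / n := by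
      intro h
      have hES : ∫ θ, S θ h ∂P ≤ Z h + exp (A h) / n := mean_pairs_le μ (hGmh h) (hGA h) K
      rw [integral_div, div_le_iff₀ (hZ0 h)]
      refine hES.trans ?_
      have h1 : exp (A h) ≤ exp (2 * A h) * Z h :=
        calc exp (A h) = exp (2 * A h) * exp (-A h) := by rw [← exp_add]; ring_nf
          _ ≤ _ := mul_le_mul_of_nonneg_left (hZge h) (exp_pos _).le
      have h2 := div_le_div_of_nonneg_right h1 hn0.le
      linarith [show exp (2 * A h) * Z h / n = exp (2 * A h) / n * Z h by ring]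
    refine (integral_mono hjoint.integral_prod_right ((integrable_const _).add (hAi.div_const n))
      hpt).trans ?_
    simp only [Pi.add_apply]
    rw [integral_add (integrable_const _) (hAi.div_const n), integral_div, integral_const,
      probReal_univ, one_smul]
    have : (∫ h, exp (2 * A h) ∂η) / n ≤ 1 := by rw [div_le_one hn0]; exact hK
    linarith
  · have hlse : ∀ h, lse (fun p : Fin (K + 1) × Fin (K + 1) => G h (θ p.1, θ p.2))
        = log (S θ h) + 2 * log n := fun h => by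
      have e := lse_sub_log (fun p : Fin (K + 1) × Fin (K + 1) => G h (θ p.1, θ p.2))
      rw [hcard, log_mul hn0.ne' hn0.ne'] at e
      simp only [hS]
      linarith
    have i1 : Integrable (fun h => log (S θ h)) η :=
      hAl.mono' (hSM.comp (measurable_const.prodMk measurable_id)).log.aestronglyMeasurable
        (ae_of_all _ fun h => by rw [Real.norm_eq_abs]; exact abs_log_le_of_mem (hSm θ h))
    have i2 : Integrable (fun h => log (Z h)) η :=
      hAl.mono' hZm.log.aestronglyMeasurable (ae_of_all _ fun h => by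
        rw [Real.norm_eq_abs]; exact abs_log_le_of_mem ⟨hZge h, hZle h⟩)
    have i3 : Integrable (fun h => S θ h / Z h) η := by
      refine hAi.mono' (hSmeas.comp (measurable_const.prodMk measurable_id)).aestronglyMeasurable
        (ae_of_all _ fun h => ?_)
      rw [Real.norm_eq_abs, abs_of_nonneg (hSnn _ _)]
      exact hSZ _ _
    simp only [hlse]
    rw [integral_add i1 (integrable_const _), integral_const, probReal_univ, one_smul,
      add_sub_cancel_right, ← integral_add i2 i3]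
    refine integral_mono i1 (i2.add i3) fun h => ?_
    have := log_le_tangent ((exp_pos _).trans_le (hSm θ h).1) (hZ0 h)
    simp only [Pi.add_apply]
    linarith

/-- One system from a sample, averaged over a field. -/
lemma single_gen {F : H → E → ℝ} (hFm : Measurable fun q : H × E => F q.1 q.2) {A : H → ℝ}
    (hFA : ∀ h x, |F h x| ≤ A h) (hAl : Integrable A η)
    (hAi : Integrable (fun h => exp (2 * A h)) η) (K : ℕ) :
    Integrable (fun θ => ∫ h, lse (fun k : Fin (K + 1) => F h (θ k)) ∂η) (Measure.pi fun _ => μ) ∧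
      ∫ θ, |∫ h, lse (fun k : Fin (K + 1) => F h (θ k)) ∂η - log (K + 1)
          - ∫ h, log (∫ x, exp (F h x) ∂μ) ∂η| ∂Measure.pi (fun _ => μ)
        ≤ (∫ h, exp (2 * A h) ∂η) / √((K + 1 : ℕ) : ℝ) := by
  set P := Measure.pi (fun _ : Fin (K + 1) => μ) with hP
  have hFmh : ∀ h, Measurable (F h) := fun h => hFm.comp (measurable_const.prodMk measurable_id)
  set Z : H → ℝ := fun h => ∫ x, exp (F h x) ∂μ with hZ
  have hZm : Measurable Z := hFm.exp.stronglyMeasurable.integral_prod_right.measurable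
  have i2 : Integrable (fun h => log (Z h)) η :=
    hAl.mono' hZm.log.aestronglyMeasurable (ae_of_all _ fun h => by
      rw [Real.norm_eq_abs]
      exact abs_log_le_of_mem
        ⟨le_integral_exp μ (hFmh h) (hFA h), integral_exp_le μ (hFmh h) (hFA h)⟩)
  set D : (Fin (K + 1) → E) → H → ℝ :=
    fun θ h => lse (fun k => F h (θ k)) - log (K + 1) - log (Z h) with hD
  have hDm : Measurable fun q : (Fin (K + 1) → E) × H => D q.1 q.2 := by
    refine ((Measurable.log (Finset.measurable_sum _ fun k _ => ?_)).sub_const _).sub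
      (hZm.comp measurable_snd).log
    exact (hFm.comp (measurable_snd.prodMk ((measurable_pi_apply k).comp measurable_fst))).exp
  have hDb : ∀ θ h, |D θ h| ≤ 2 * A h := fun θ h => by
    refine (abs_sub _ _).trans ?_
    have := abs_log_le_of_mem
      (⟨le_integral_exp μ (hFmh h) (hFA h), integral_exp_le μ (hFmh h) (hFA h)⟩ :
        Z h ∈ Icc (exp (-A h)) (exp (A h)))
    have e := lse_sub_log (fun k : Fin (K + 1) => F h (θ k))
    have hc : ((Fintype.card (Fin (K + 1)) : ℕ) : ℝ) = (K : ℝ) + 1 := by simp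
    rw [hc] at e
    have h2 := mean_exp_mem (h := fun k : Fin (K + 1) => F h (θ k)) (A := A h) (fun k => hFA h _)
    rw [hc] at h2
    have h3 := abs_log_le_of_mem h2
    rw [← e] at h3
    linarith
  have hjoint : Integrable (fun q : (Fin (K + 1) → E) × H => D q.1 q.2) (P.prod η) :=
    ((hAl.const_mul 2).comp_snd P).mono' hDm.aestronglyMeasurable
      (ae_of_all _ fun q => by rw [Real.norm_eq_abs]; exact hDb _ _)
  have hfld : ∀ θ : Fin (K + 1) → E, ∫ h, lse (fun k => F h (θ k)) ∂η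
      = (∫ h, D θ h ∂η) + log (K + 1) + ∫ h, log (Z h) ∂η := by
    intro θ
    have iD : Integrable (fun h => D θ h) η :=
      (hAl.const_mul 2).mono' (hDm.comp (measurable_const.prodMk measurable_id)).aestronglyMeasurable
        (ae_of_all _ fun h => by rw [Real.norm_eq_abs]; exact hDb θ h)
    have i4 : Integrable (fun h => D θ h + log (K + 1)) η := iD.add (integrable_const _)
    have e : (fun h => D θ h + log (K + 1) + log (Z h)) = fun h => lse (fun k => F h (θ k)) := by
      funext h; simp only [hD]; ring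
    rw [← e, integral_add i4 i2, integral_add iD (integrable_const _), integral_const,
      probReal_univ, one_smul]
  refine ⟨((hjoint.integral_prod_left.add (integrable_const (log (K + 1)))).add
    (integrable_const (∫ h, log (Z h) ∂η))).congr (ae_of_all _ fun θ => (hfld θ).symm), ?_⟩
  have hab := hjoint.abs
  calc ∫ θ, |∫ h, lse (fun k : Fin (K + 1) => F h (θ k)) ∂η - log (K + 1) - ∫ h, log (Z h) ∂η| ∂P
      = ∫ θ, |∫ h, D θ h ∂η| ∂P := by
        refine integral_congr_ae (ae_of_all _ fun θ => ?_)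
        simp only [hfld θ]
        congr 1
        ring
    _ ≤ ∫ θ, ∫ h, |D θ h| ∂η ∂P :=
        integral_mono hjoint.integral_prod_left.abs hab.integral_prod_left
          fun θ => abs_integral_le_integral_abs
    _ = ∫ h, ∫ θ, |D θ h| ∂P ∂η := integral_integral_swap hab
    _ ≤ ∫ h, exp (2 * A h) / √((K + 1 : ℕ) : ℝ) ∂η :=
        integral_mono hab.integral_prod_right (hAi.div_const _) fun h => by
          simpa [hD, hZ] using sample_near μ (hFmh h) (hFA h) K
    _ = _ := integral_div _ _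

end Gen

lemma unitS_unit {N K : ℕ} (hN : 0 < N) (θ : Fin (K + 1) → Fin N → ℝ) (y : Fin (K + 1)) :
    dot (unitS θ y) (unitS θ y) = 1 :=
  nrm_unit hN (θ y)

/-- Pairs from a sample lie below two coupled spheres, up to an error of mean at most `2`. -/
theorem avg_pair {N : ℕ} (hN : 0 < N) {r Λ : ℝ} (hr : 0 ≤ r) :
    ∀ᶠ K : ℕ in atTop, ∀ ρ ∈ Icc (-1 : ℝ) 1, ∀ ν : ℝ, |ν| ≤ Λ →
      ∃ Ψ : (Fin (K + 1) → Fin N → ℝ) → ℝ, Integrable Ψ (samp N K) ∧ (∀ θ, 0 ≤ Ψ θ) ∧
        ∫ θ, Ψ θ ∂samp N K ≤ 2 ∧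
        ∀ θ, GP (unitS θ) (r * N) ρ (ν * N) - 2 * log (K + 1) ≤ sph2 N r ρ ν + Ψ θ := by
  set A : (Fin N ⊕ Fin N → ℝ) → ℝ := fun h => 2 * √(r * N) * (∑ i, |h i|) + Λ * N with hA
  have hAi : Integrable (fun h => exp (2 * A h)) (gauss (Fin N ⊕ Fin N)) := by
    refine ((integrable_exp_sum (ι := Fin N ⊕ Fin N) (4 * √(r * N))).const_mul
      (exp (2 * (Λ * N)))).congr (ae_of_all _ fun h => ?_)
    simp only [hA]
    rw [← exp_add]; ring_nf
  have hAl : Integrable A (gauss (Fin N ⊕ Fin N)) :=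
    ((integrable_finsetSum _ fun i _ => (Vale.Agent.P150.integrable_eval i).abs).const_mul _).add
      (integrable_const _)
  filter_upwards [eventually_ge_atTop ⌈∫ h, exp (2 * A h) ∂gauss (Fin N ⊕ Fin N)⌉₊] with K hK ρ hρ ν hν
  have hMK : ∫ h, exp (2 * A h) ∂gauss (Fin N ⊕ Fin N) ≤ (K : ℝ) + 1 := by
    have := (Nat.le_ceil (∫ h, exp (2 * A h) ∂gauss (Fin N ⊕ Fin N))).trans (Nat.cast_le.2 hK)
    linarith
  have hc : Continuous fun q : (Fin N ⊕ Fin N → ℝ) × ((Fin N → ℝ) × (Fin N → ℝ)) =>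
      expo r ρ ν q.1 q.2 := by unfold expo dot; fun_prop
  have hq : Measurable fun q : (Fin N ⊕ Fin N → ℝ) × ((Fin N → ℝ) × (Fin N → ℝ)) =>
      (q.1, (nrm q.2.1, nrm q.2.2)) :=
    measurable_fst.prodMk ((measurable_nrm.comp measurable_snd.fst).prodMk
      (measurable_nrm.comp measurable_snd.snd))
  have hGm : Measurable fun q : (Fin N ⊕ Fin N → ℝ) × ((Fin N → ℝ) × (Fin N → ℝ)) =>
      expo r ρ ν q.1 (nrm q.2.1, nrm q.2.2) := by
    have h := hc.measurable.comp hq
    simpa only [Function.comp_def] using h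
  obtain ⟨Ψ, h1, h2, h3, h4⟩ := pair_gen (sph (Fin N)) (gauss (Fin N ⊕ Fin N))
    (G := fun h p => expo r ρ ν h (nrm p.1, nrm p.2)) hGm
    (A := A) (fun h p => abs_expo_le hN hρ hν h p.1 p.2) hAl hAi hMK
  refine ⟨Ψ, h1, h2, h3, fun θ => ?_⟩
  have e1 : GP (unitS θ) (r * N) ρ (ν * N)
      = ∫ h, lse (fun p : Fin (K + 1) × Fin (K + 1) => expo r ρ ν h (nrm (θ p.1), nrm (θ p.2)))
          ∂gauss (Fin N ⊕ Fin N) := by
    simp only [GP, fld]
    refine integral_congr_ae (ae_of_all _ fun h => ?_)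
    refine congrArg lse (funext fun p => ?_)
    simp only [expo, ovl, unitS, dot_pairVec_avg]
    ring
  have e2 : sph2 N r ρ ν = ∫ h, log (∫ p, exp (expo r ρ ν h (nrm p.1, nrm p.2))
      ∂(sph (Fin N)).prod (sph (Fin N))) ∂gauss (Fin N ⊕ Fin N) := by
    simp only [sph2]
    refine integral_congr_ae (ae_of_all _ fun h => ?_)
    refine congrArg log (integral_congr_ae ?_)
    have a1 : ∀ᵐ p ∂(sph (Fin N)).prod (sph (Fin N)), nrm p.1 = p.1 :=
      Measure.quasiMeasurePreserving_fst.tendsto_ae.eventually (ae_nrm hN)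
    have a2 : ∀ᵐ p ∂(sph (Fin N)).prod (sph (Fin N)), nrm p.2 = p.2 :=
      Measure.quasiMeasurePreserving_snd.tendsto_ae.eventually (ae_nrm hN)
    filter_upwards [a1, a2] with p a b
    simp only [expo, a, b]
  rw [e1, e2]
  exact h4 θ

/-- A single field on a sample. -/
theorem avg_single {N : ℕ} (hN : 0 < N) {r : ℝ} (hr : 0 ≤ r) :
    (∀ K, Integrable (fun θ => fld (unitS θ) (r * N) lse 0) (samp N K)) ∧
      Tendsto (fun K : ℕ => ∫ θ, |fld (unitS θ) (r * N) lse 0 - log (K + 1) - sph1 N r| ∂samp N K)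
        atTop (𝓝 0) := by
  set A : (Fin N → ℝ) → ℝ := fun h => √(r * N) * ∑ i, |h i| with hA
  have hAi : Integrable (fun h => exp (2 * A h)) (gauss (Fin N)) := by
    refine (integrable_exp_sum (ι := Fin N) (2 * √(r * N))).congr (ae_of_all _ fun h => ?_)
    simp only [hA, mul_assoc]
  have hAl : Integrable A (gauss (Fin N)) :=
    (integrable_finsetSum _ fun i _ => (Vale.Agent.P150.integrable_eval i).abs).const_mul _
  have hc : Continuous fun q : (Fin N → ℝ) × (Fin N → ℝ) => √(r * N) * dot q.2 q.1 := by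
    unfold dot; fun_prop
  have hFm : Measurable fun q : (Fin N → ℝ) × (Fin N → ℝ) => √(r * N) * dot (nrm q.2) q.1 :=
    hc.measurable.comp (measurable_fst.prodMk (measurable_nrm.comp measurable_snd))
  have hFA : ∀ h x : Fin N → ℝ, |√(r * N) * dot (nrm x) h| ≤ A h := fun h x => by
    rw [abs_mul, abs_of_nonneg (sqrt_nonneg _)]
    exact mul_le_mul_of_nonneg_left (abs_dot_nrm_le hN x h) (sqrt_nonneg _)
  have key := fun K => single_gen (sph (Fin N)) (gauss (Fin N))
    (F := fun h x => √(r * N) * dot (nrm x) h) hFm (A := A) hFA hAl hAi K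
  have hfld : ∀ K, ∀ θ : Fin (K + 1) → Fin N → ℝ, fld (unitS θ) (r * N) lse 0
      = ∫ h, lse (fun k : Fin (K + 1) => √(r * N) * dot (nrm (θ k)) h) ∂gauss (Fin N) := by
    intro K θ
    simp only [fld, unitS, Pi.zero_apply, zero_add]
  have hs1 : sph1 N r = ∫ h, log (∫ x, exp (√(r * N) * dot (nrm x) h) ∂sph (Fin N)) ∂gauss (Fin N) := by
    refine integral_congr_ae (ae_of_all _ fun h => ?_)
    show log _ = log _
    congr 1
    refine integral_congr_ae ?_
    filter_upwards [ae_nrm hN] with x hx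
    simp only [hx]
  refine ⟨fun K => (key K).1.congr (ae_of_all _ fun θ => (hfld K θ).symm),
    squeeze_zero (g := fun K : ℕ => (∫ h, exp (2 * A h) ∂gauss (Fin N)) / √((K + 1 : ℕ) : ℝ))
      (fun K => integral_nonneg fun θ => abs_nonneg _) (fun K => ?_)
      (tendsto_const_nhds.div_atTop (Real.tendsto_sqrt_atTop.comp
        (tendsto_natCast_atTop_atTop.comp (tendsto_add_atTop_nat 1))))⟩
  simp only [hfld, hs1]
  exact (key K).2

end P157.RS.Asm

end
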