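import Vale.Agent.P157.RS.Conc

/-!
# P157, RS assembly: continuity and integrability of the free energies of finite systems
-/

noncomputable section

open MeasureTheory ProbabilityTheory Real Filter Topology Set
open scoped BigOperators

namespace P157.RS.Asm

open Vale.Agent.P150 (gauss)
open P157 (Em)

variable {Y L ι κ : Type*} [Fintype Y] [Nonempty Y] [Fintype L] [Fintype ι] [Fintype κ]
  {f : ℝ → ℝ} {B : ℝ}

lemma lse_lip {s t : Y → ℝ} {M : ℝ} (h : ∀ y, |s y - t y| ≤ M) : |lse s - lse t| ≤ M :=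
  Vale.Agent.P150.abs_lse_sub_le h

lemma abs_lse_le (t : Y → ℝ) : |lse t| ≤ |lse fun _ : Y => (0 : ℝ)| + ∑ y, |t y| := by
  have h := lse_lip (s := t) (t := fun _ => 0) (M := ∑ y, |t y|) fun y => by
    rw [sub_zero]
    exact Finset.single_le_sum (f := fun y => |t y|) (fun i _ => abs_nonneg _) (Finset.mem_univ y)
  linarith [abs_sub_abs_le_abs_sub (lse t) (lse fun _ : Y => (0 : ℝ))]

lemma continuous_lse : Continuous (lse : (Y → ℝ) → ℝ) :=
  Continuous.log (by fun_prop) fun t => (Vale.Agent.P150.sum_exp_pos _).ne'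

lemma continuous_dot (x : ι → ℝ) : Continuous fun g : ι → ℝ => dot x g := by unfold dot; fun_prop

lemma continuous_rowInc (hf : Continuous f) (a : Y → L → ι → ℝ) :
    Continuous fun g : ι → ℝ => rowInc f a g :=
  continuous_pi fun y => continuous_finsetSum _ fun l _ => hf.comp (continuous_dot _)

lemma abs_rowInc_le (hB : ∀ s, |f s| ≤ B) (a : Y → L → ι → ℝ) (g : ι → ℝ) (y : Y) :
    |rowInc f a g y| ≤ Fintype.card L * B :=
  (Finset.abs_sum_le_sum_abs _ _).trans <| by
    refine (Finset.sum_le_sum fun l _ => hB _).trans_eq ?_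
    rw [Finset.sum_const, Finset.card_univ, nsmul_eq_mul]

lemma continuous_sysU (hf : Continuous f) (a : Y → L → ι → ℝ) (z : Y → κ → ℝ) (v : ℝ) (k : ℕ)
    (u : Y → ℝ) : Continuous fun ω => sysU f a z v k u ω := by
  refine continuous_pi fun y => ?_
  unfold sysU
  refine Continuous.add (continuous_const.add ?_) (continuous_const.mul ?_)
  · exact continuous_finsetSum _ fun j _ =>
      ((continuous_apply y).comp (continuous_rowInc hf a)).comp
        (continuous_pi fun i => continuous_apply _)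
  · exact (continuous_dot _).comp (continuous_pi fun i => continuous_apply _)

/-- Coordinates bounded by `c`. -/
def Cbd (z : Y → κ → ℝ) (c : ℝ) : Prop := ∀ y i, |z y i| ≤ c

omit [Fintype Y] [Nonempty Y] in
lemma abs_dot_le {z : Y → κ → ℝ} {c : ℝ} (hz : Cbd z c) (y : Y) (g : κ → ℝ) :
    |dot (z y) g| ≤ c * ∑ i, |g i| := by
  rw [Finset.mul_sum]
  refine (Finset.abs_sum_le_sum_abs _ _).trans (Finset.sum_le_sum fun i _ => ?_)
  rw [abs_mul]
  exact mul_le_mul_of_nonneg_right (hz y i) (abs_nonneg _)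

omit [Nonempty Y] in
lemma exists_cbd (z : Y → κ → ℝ) : ∃ c, 0 ≤ c ∧ Cbd z c := by
  exact ⟨∑ y, ∑ i, |z y i|, by positivity, fun y i =>
    (Finset.single_le_sum (f := fun i => |z y i|) (fun i _ => abs_nonneg _) (Finset.mem_univ i)).trans
      (Finset.single_le_sum (f := fun y => ∑ i, |z y i|) (fun y _ => by positivity) (Finset.mem_univ y))⟩

omit [Fintype Y] [Nonempty Y] in
lemma sum_inr_le (k : ℕ) (ω : (Fin k × ι) ⊕ κ → ℝ) :
    ∑ i, |ω (Sum.inr i)| ≤ ∑ i, |ω i| := by
  rw [Fintype.sum_sum_type]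
  have : 0 ≤ ∑ i, |ω (Sum.inl i)| := by positivity
  linarith

lemma abs_sysU_le (hB : ∀ s, |f s| ≤ B) (a : Y → L → ι → ℝ) {z : Y → κ → ℝ} {c : ℝ}
    (hc : 0 ≤ c) (hz : Cbd z c) (v : ℝ) (k : ℕ) (u : Y → ℝ) (ω : (Fin k × ι) ⊕ κ → ℝ) (y : Y) :
    |sysU f a z v k u ω y| ≤ |u y| + k * (Fintype.card L * B) + √v * c * ∑ i, |ω i| := by
  refine (abs_add_le _ _).trans (add_le_add ((abs_add_le _ _).trans (add_le_add le_rfl ?_)) ?_)
  · refine (Finset.abs_sum_le_sum_abs _ _).trans
      ((Finset.sum_le_sum fun j _ => abs_rowInc_le hB a _ y).trans_eq ?_)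
    rw [Finset.sum_const, Finset.card_univ, nsmul_eq_mul, Fintype.card_fin]
  · rw [abs_mul, abs_of_nonneg (sqrt_nonneg v), mul_assoc]
    exact mul_le_mul_of_nonneg_left ((abs_dot_le hz y _).trans
      (mul_le_mul_of_nonneg_left (sum_inr_le k ω) hc)) (sqrt_nonneg v)

lemma integrable_sys (hf : Continuous f) (hB : ∀ s, |f s| ≤ B) (a : Y → L → ι → ℝ)
    (z : Y → κ → ℝ) (v : ℝ) (k : ℕ) (u : Y → ℝ) {Φ : (Y → ℝ) → ℝ} (hΦ : Continuous Φ) {A : ℝ}
    (hA : ∀ t, |Φ t| ≤ A + ∑ y, |t y|) :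
    Integrable (fun ω => Φ (sysU f a z v k u ω)) (gauss ((Fin k × ι) ⊕ κ)) := by
  obtain ⟨c, hc, hz⟩ := exists_cbd z
  refine Vale.Agent.P150.integrable_of_linear_bound (hΦ.comp (continuous_sysU hf a z v k u))
    (A := A + ∑ y, (|u y| + k * (Fintype.card L * B))) (B := ∑ _y : Y, √v * c) fun ω => ?_
  refine (hA _).trans ?_
  rw [Finset.sum_mul, add_assoc, ← Finset.sum_add_distrib]
  exact add_le_add le_rfl (Finset.sum_le_sum fun y _ => abs_sysU_le hB a hc hz v k u ω y)

lemma integrable_sys_lse (hf : Continuous f) (hB : ∀ s, |f s| ≤ B) (a : Y → L → ι → ℝ)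
    (z : Y → κ → ℝ) (v : ℝ) (k : ℕ) (u : Y → ℝ) :
    Integrable (fun ω => lse (sysU f a z v k u ω)) (gauss ((Fin k × ι) ⊕ κ)) :=
  integrable_sys hf hB a z v k u continuous_lse abs_lse_le

lemma Rk_lse (hf : Continuous f) (hB : ∀ s, |f s| ≤ B) (a : Y → L → ι → ℝ) (z : Y → κ → ℝ)
    (v : ℝ) (k : ℕ) (u : Y → ℝ) :
    Rk f a (fld z v lse) k u = ∫ ω, lse (sysU f a z v k u ω) ∂gauss ((Fin k × ι) ⊕ κ) :=
  Rk_fld_eq hf hB a z v lse continuous_lse abs_lse_le k u

lemma Rk_lip (hf : Continuous f) (hB : ∀ s, |f s| ≤ B) (a : Y → L → ι → ℝ) (z : Y → κ → ℝ)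
    (v : ℝ) (k : ℕ) {s t : Y → ℝ} {M : ℝ} (h : ∀ y, |s y - t y| ≤ M) :
    |Rk f a (fld z v lse) k s - Rk f a (fld z v lse) k t| ≤ M := by
  rw [Rk_lse hf hB, Rk_lse hf hB, ← integral_sub (integrable_sys_lse hf hB a z v k s)
    (integrable_sys_lse hf hB a z v k t), ← Real.norm_eq_abs]
  refine (norm_integral_le_of_norm_le_const (C := M) (ae_of_all _ fun ω => ?_)).trans_eq (by simp)
  rw [Real.norm_eq_abs]
  refine lse_lip fun y => ?_
  simp only [sysU, add_sub_add_right_eq_sub]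
  exact h y

lemma Rk_succ_near (hf : Continuous f) (hB : ∀ s, |f s| ≤ B) (a : Y → L → ι → ℝ) (z : Y → κ → ℝ)
    (v : ℝ) (k : ℕ) (u : Y → ℝ) :
    |Rk f a (fld z v lse) (k + 1) u - Rk f a (fld z v lse) k u| ≤ Fintype.card L * B := by
  show |T f a (Rk f a (fld z v lse) k) u - _| ≤ _
  set h : (Y → ℝ) → ℝ := Rk f a (fld z v lse) k
  have hb : ∀ g : ι → ℝ, |h (fun y => u y + rowInc f a g y) - h u| ≤ Fintype.card L * B :=
    fun g => Rk_lip hf hB a z v k fun y => by
      rw [add_sub_cancel_left]; exact abs_rowInc_le hB a g y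
  have hc : Continuous h := by
    refine continuous_iff_continuousAt.2 fun t => ?_
    refine Metric.continuousAt_iff.2 fun ε hε => ⟨ε / 2, by positivity, fun s hs => ?_⟩
    rw [Real.dist_eq]
    have : |h s - h t| ≤ ε / 2 := Rk_lip hf hB a z v k fun y => by
      rw [← Real.dist_eq]; exact (dist_le_pi_dist s t y).trans hs.le
    linarith
  have hi : Integrable (fun g => h (fun y => u y + rowInc f a g y)) (gauss ι) := by
    refine Integrable.of_bound (hc.comp (continuous_pi fun y => continuous_const.add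
      ((continuous_apply y).comp (continuous_rowInc hf a)))).aestronglyMeasurable
      (|h u| + Fintype.card L * B) (ae_of_all _ fun g => ?_)
    rw [Real.norm_eq_abs]
    linarith [hb g, abs_sub_abs_le_abs_sub (h (fun y => u y + rowInc f a g y)) (h u)]
  have e : T f a h u - h u = ∫ g, (h (fun y => u y + rowInc f a g y) - h u) ∂gauss ι := by
    rw [integral_sub hi (integrable_const _), integral_const, probReal_univ, one_smul]
    rfl
  rw [e, ← Real.norm_eq_abs]
  exact (norm_integral_le_of_norm_le_const (ae_of_all _ fun g => by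
    rw [Real.norm_eq_abs]; exact hb g)).trans_eq (by simp)

lemma Rk_near (hf : Continuous f) (hB : ∀ s, |f s| ≤ B) (a : Y → L → ι → ℝ) (z : Y → κ → ℝ)
    (v : ℝ) (k l : ℕ) (u : Y → ℝ) :
    |Rk f a (fld z v lse) k u - Rk f a (fld z v lse) l u|
      ≤ Fintype.card L * B * |(k : ℝ) - l| := by
  have key : ∀ d l : ℕ, |Rk f a (fld z v lse) (l + d) u - Rk f a (fld z v lse) l u|
      ≤ Fintype.card L * B * d := by
    intro d
    induction d with
    | zero => intro l; simp
    | succ d ih =>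
      intro l
      refine (abs_sub_le _ (Rk f a (fld z v lse) (l + d) u) _).trans ?_
      push_cast
      rw [mul_add, mul_one, add_comm (_ * _) (Fintype.card L * B)]
      exact add_le_add (Rk_succ_near hf hB a z v (l + d) u) (ih l)
  rcases le_total l k with h | h
  · obtain ⟨d, rfl⟩ := Nat.exists_eq_add_of_le h
    refine (key d l).trans_eq ?_
    push_cast; rw [add_sub_cancel_left, abs_of_nonneg d.cast_nonneg]
  · obtain ⟨d, rfl⟩ := Nat.exists_eq_add_of_le h
    rw [abs_sub_comm]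
    refine (key d k).trans_eq ?_
    push_cast; rw [sub_add_cancel_left, abs_neg, abs_of_nonneg d.cast_nonneg]

/-- The first absolute moment of a standard Gaussian. -/
def absMom : ℝ := ∫ t, |t| ∂gaussianReal 0 1

lemma absMom_nonneg : 0 ≤ absMom := integral_nonneg fun _ => abs_nonneg _

lemma integral_sum_abs (k : ℕ) :
    ∫ ω : (Fin k × ι) ⊕ κ → ℝ, ∑ i, |ω (Sum.inr i)| ∂gauss ((Fin k × ι) ⊕ κ)
      = Fintype.card κ * absMom := by
  have he : ∀ i : κ, ∫ ω : (Fin k × ι) ⊕ κ → ℝ, |ω (Sum.inr i)| ∂gauss ((Fin k × ι) ⊕ κ) = absMom :=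
    fun i => integral_comp_eval (μ := fun _ : (Fin k × ι) ⊕ κ => gaussianReal 0 1) (i := Sum.inr i)
      (f := fun t => |t|) continuous_abs.aestronglyMeasurable
  rw [integral_finsetSum _ fun i _ => (Vale.Agent.P150.integrable_eval (Sum.inr i)).abs]
  simp only [he, Finset.sum_const, Finset.card_univ, nsmul_eq_mul]

/-- Changing the variance of the field by at most `d`. -/
lemma Rk_var_near (hf : Continuous f) (hB : ∀ s, |f s| ≤ B) (a : Y → L → ι → ℝ) {z : Y → κ → ℝ}
    {c : ℝ} (hc : 0 ≤ c) (hz : Cbd z c) {v v' d : ℝ} (hv : 0 ≤ v) (hd : 0 ≤ d) (hv' : v' = v + d)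
    (k : ℕ) (u : Y → ℝ) :
    |Rk f a (fld z v' lse) k u - Rk f a (fld z v lse) k u|
      ≤ √d * c * (Fintype.card κ * absMom) := by
  rw [Rk_lse hf hB, Rk_lse hf hB, ← integral_sub (integrable_sys_lse hf hB a z v' k u)
    (integrable_sys_lse hf hB a z v k u)]
  refine abs_integral_le_integral_abs.trans ?_
  rw [← integral_sum_abs (ι := ι) (κ := κ) k, ← integral_const_mul]
  refine integral_mono ((integrable_sys_lse hf hB a z v' k u).sub
    (integrable_sys_lse hf hB a z v k u)).abs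
    ((integrable_finsetSum _ fun i _ =>
      (Vale.Agent.P150.integrable_eval (Sum.inr i)).abs).const_mul _) fun ω => ?_
  refine lse_lip fun y => ?_
  simp only [sysU, add_sub_add_left_eq_sub, ← sub_mul]
  rw [abs_mul, mul_assoc]
  refine mul_le_mul ?_ (abs_dot_le hz y _) (abs_nonneg _) (sqrt_nonneg _)
  subst hv'
  rw [abs_of_nonneg (sub_nonneg.2 (sqrt_le_sqrt (le_add_of_nonneg_right hd)))]
  rw [sub_le_iff_le_add]
  refine (sqrt_le_left (by positivity)).2 ?_
  nlinarith [sq_sqrt hv, sq_sqrt hd, sqrt_nonneg v, sqrt_nonneg d]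

lemma fld_var_near {z : Y → κ → ℝ} {c : ℝ} (hc : 0 ≤ c) (hz : Cbd z c) {v v' d : ℝ} (hv : 0 ≤ v)
    (hd : 0 ≤ d) (hv' : v' = v + d) (u : Y → ℝ) :
    |fld z v' lse u - fld z v lse u| ≤ √d * c * (Fintype.card κ * absMom) :=
  Rk_var_near (f := fun _ => 0) (B := 0) continuous_const (fun _ => by simp)
    (fun _ _ _ => (0 : ℝ) : Y → Unit → Unit → ℝ) hc hz hv hd hv' 0 u

end P157.RS.Asm

end
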