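import Vale.Agent.P157.RS.Asm.Basic
import Vale.Agent.P157.RS.Field
import Vale.Agent.P157.RS.Site

/-!
# P157, RS assembly: the hybrid systems and the windows
-/

noncomputable section

open MeasureTheory ProbabilityTheory Real Filter Topology Set
open scoped BigOperators

namespace P157.RS.Asm

open Vale.Agent.P150 (gauss)
open P157 (Em)

variable {Y ι : Type*} [Fintype Y] [Fintype ι]

/-- A single system as a family with one site. -/
def sys1 (θ : Y → ι → ℝ) : Y → Fin 1 → ι → ℝ := fun y _ => θ y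

/-- The overlap of the two states of a pair. -/
def ovl (θ : Y → ι → ℝ) (p : Y × Y) : ℝ := dot (θ p.1) (θ p.2)

/-- The squared distance of an overlap from `q`. -/
def sqOv (θ : Y → ι → ℝ) (q : ℝ) (x y : Y) : ℝ := (dot (θ x) (θ y) - q) ^ 2

/-- The free energy of `j` slots of rows and a field of `m` slots. -/
def hyb (f : ℝ → ℝ) (θ : Y → ι → ℝ) (w v : ℝ) (j m : ℕ) : ℝ :=
  Em w j fun k => Rk f (sys1 θ) (fld θ (m * v) lse) k 0

/-- The mean squared deviation of the overlap in the hybrid system. -/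
def ovq (f : ℝ → ℝ) (θ : Y → ι → ℝ) (w v q : ℝ) (j m : ℕ) : ℝ :=
  Em w j fun k => Rk f (sys1 θ) (fld θ (m * v) fun t => avgC t (sqOv θ q)) k 0

/-- A pair of systems restricted to a set of pairs of states. -/
def sysW (θ : Y → ι → ℝ) (s : Finset (Y × Y)) : s → Fin 2 → ι → ℝ :=
  fun p => ![θ p.1.1, θ p.1.2]

/-- The common field of a pair. -/
def zsum (θ : Y → ι → ℝ) (s : Finset (Y × Y)) : s → ι → ℝ :=
  fun p i => θ p.1.1 i + θ p.1.2 i

/-- Two fields of correlation `ρ` on the two states of a pair. -/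
def pairVec (θ : Y → ι → ℝ) (ρ : ℝ) (p : Y × Y) : ι ⊕ ι → ℝ :=
  Sum.elim (fun i => θ p.1 i + ρ * θ p.2 i) fun i => √(1 - ρ ^ 2) * θ p.2 i

/-- Two spheres coupled by `μ` in correlated fields. -/
def GP (θ : Y → ι → ℝ) (V ρ μ : ℝ) : ℝ :=
  fld (pairVec θ ρ) V lse fun p => μ * ovl θ p

/-- Centres of the windows. -/
def ctr (P : ℕ) (i : Fin (P + 1)) : ℝ := -1 + (i : ℝ) * (2 / P)

/-- The window of an overlap. -/
def idx (P : ℕ) (R : ℝ) : Fin (P + 1) :=
  ⟨min P ⌊(R + 1) * P / 2⌋₊, Nat.lt_succ_of_le (min_le_left _ _)⟩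

/-- The pairs of states in a window. -/
def win (θ : Y → ι → ℝ) (P : ℕ) (i : Fin (P + 1)) : Finset (Y × Y) :=
  Finset.univ.filter fun p => idx P (ovl θ p) = i

lemma abs_ovl_le {θ : Y → ι → ℝ} (hθ : ∀ y, dot (θ y) (θ y) = 1) (p : Y × Y) : |ovl θ p| ≤ 1 := by
  have h : ∀ a b : ℝ, a * b ≤ (a * a + b * b) / 2 := fun a b => by nlinarith [sq_nonneg (a - b)]
  rw [abs_le]
  constructor
  · have := Finset.sum_le_sum (s := Finset.univ) fun i _ => h (-θ p.1 i) (θ p.2 i)
    rw [← Finset.sum_div, Finset.sum_add_distrib] at this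
    simp only [neg_mul, mul_neg, neg_neg, Finset.sum_neg_distrib] at this
    have e1 := hθ p.1; have e2 := hθ p.2
    simp only [dot, ovl] at e1 e2 ⊢
    linarith
  · have := Finset.sum_le_sum (s := Finset.univ) fun i _ => h (θ p.1 i) (θ p.2 i)
    rw [← Finset.sum_div, Finset.sum_add_distrib] at this
    have e1 := hθ p.1; have e2 := hθ p.2
    simp only [dot, ovl] at e1 e2 ⊢
    linarith

lemma cbd_unit {θ : Y → ι → ℝ} (hθ : ∀ y, dot (θ y) (θ y) = 1) : Cbd θ 1 := fun y i => by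
  have h := Finset.single_le_sum (f := fun i => θ y i * θ y i) (fun i _ => mul_self_nonneg _)
    (Finset.mem_univ i)
  have e := hθ y
  simp only [dot] at e
  rw [e] at h
  exact abs_le_one_iff_mul_self_le_one.2 h

lemma abs_sub_ctr_le {P : ℕ} (hP : 0 < P) {R : ℝ} (hR : |R| ≤ 1) :
    |R - ctr P (idx P R)| ≤ 2 / P := by
  have hP' : (0 : ℝ) < P := by exact_mod_cast hP
  obtain ⟨h1, h2⟩ := abs_le.1 hR
  set x := (R + 1) * P / 2 with hx
  have hx0 : 0 ≤ x := by rw [hx]; have : 0 ≤ R + 1 := by linarith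
                         positivity
  have hxP : x ≤ P := by rw [hx]; nlinarith
  have hf : ⌊x⌋₊ ≤ P := Nat.floor_le_of_le hxP
  have e : R = -1 + x * (2 / P) := by rw [hx]; field_simp; ring
  have l := Nat.floor_le hx0
  have u := Nat.lt_floor_add_one x
  simp only [ctr, idx, ← hx, min_eq_right hf]
  rw [show R - (-1 + (⌊x⌋₊ : ℝ) * (2 / P)) = (x - ⌊x⌋₊) * (2 / P) by rw [e]; ring, abs_mul,
    abs_of_nonneg (by linarith : 0 ≤ x - ⌊x⌋₊), abs_of_nonneg (by positivity : (0 : ℝ) ≤ 2 / P)]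
  exact mul_le_of_le_one_left (by positivity) (by linarith)

end P157.RS.Asm

end
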