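import Vale.Agent.P157.RS.Asm.Avg

/-!
# P157, RS assembly: the pressure as a limit of samples
-/

noncomputable section

open MeasureTheory ProbabilityTheory Real Filter Topology Set
open scoped BigOperators

namespace P157.RS.Asm

open Vale.Agent.P150 (gauss)
open P157.Sphere (sph)

/-- The rows as one function of the disorder and of a point. -/
def pressF (f : ℝ → ℝ) {N M : ℕ} (ω : (Fin M × Fin N) ⊕ Fin 1 → ℝ) (x : Fin N → ℝ) : ℝ :=
  ∑ j : Fin M, f (dot (nrm x) fun i => ω (Sum.inl (j, i)))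

lemma measurable_pressF {f : ℝ → ℝ} (hf : Continuous f) {N M : ℕ} :
    Measurable fun q : ((Fin M × Fin N) ⊕ Fin 1 → ℝ) × (Fin N → ℝ) => pressF f q.1 q.2 := by
  refine Finset.measurable_sum _ fun j _ => hf.measurable.comp ?_
  refine Finset.measurable_sum _ fun i _ => Measurable.mul ?_ (by fun_prop)
  have h : Measurable fun x : Fin N → ℝ => nrm x i := by
    refine Measurable.ite ?_ (measurable_pi_apply i) measurable_const
    exact measurableSet_eq_fun (by unfold dot; fun_prop) measurable_const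
  exact h.comp measurable_snd

lemma abs_pressF_le {f : ℝ → ℝ} {B : ℝ} (hB : ∀ s, |f s| ≤ B) {N M : ℕ}
    (ω : (Fin M × Fin N) ⊕ Fin 1 → ℝ) (x : Fin N → ℝ) : |pressF f ω x| ≤ M * B := by
  refine (Finset.abs_sum_le_sum_abs _ _).trans
    ((Finset.sum_le_card_nsmul _ _ B fun j _ => hB _).trans_eq ?_)
  simp

/-- A Gaussian matrix as independent rows. -/
lemma measurePreserving_rows (M N : ℕ) :
    MeasurePreserving (fun ω : (Fin M × Fin N) ⊕ Fin 1 → ℝ => fun j i => ω (Sum.inl (j, i)))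
      (gauss ((Fin M × Fin N) ⊕ Fin 1))
      (Measure.pi fun _ : Fin M => Measure.pi fun _ : Fin N => gaussianReal 0 1) := by
  have hc : MeasurePreserving (MeasurableEquiv.curry (Fin M) (Fin N) ℝ) (gauss (Fin M × Fin N))
      (Measure.pi fun _ : Fin M => Measure.pi fun _ : Fin N => gaussianReal 0 1) := by
    refine ⟨(MeasurableEquiv.curry _ _ _).measurable, ?_⟩
    have := Measure.infinitePi_map_curry (fun (_ : Fin M) (_ : Fin N) => gaussianReal 0 1)
    simpa only [Measure.infinitePi_eq_pi, gauss] using this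
  exact hc.comp Vale.Agent.P150.gauss_inl

/-- The pressure as an average over the rows. -/
lemma sphPressure_eq {f : ℝ → ℝ} (hf : Continuous f) {α : ℝ} {N : ℕ} (hN : 0 < N) :
    ∫ ω, log (∫ x, exp (pressF f ω x) ∂sph (Fin N)) ∂gauss ((Fin ⌊α * N⌋₊ × Fin N) ⊕ Fin 1)
      = N * sphPressure f α N := by
  have : Nonempty (Fin N) := ⟨⟨0, hN⟩⟩
  have hN0 : (N : ℝ) ≠ 0 := by exact_mod_cast hN.ne'
  have hs : √(N : ℝ) ≠ 0 := (sqrt_pos.2 (by exact_mod_cast hN)).ne'
  set M := ⌊α * N⌋₊
  set G := fun g : Fin M → Fin N → ℝ =>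
    log (∫ x, exp (∑ j, f (dot (nrm x) (g j))) ∂sph (Fin N)) with hG
  have hm : Measurable fun q : (Fin M → Fin N → ℝ) × (Fin N → ℝ) =>
      ∑ j, f (dot (nrm q.2) (q.1 j)) := by
    have h := (measurable_pressF (f := f) hf (M := M) (N := N)).comp
      ((show Measurable fun q : (Fin M → Fin N → ℝ) × (Fin N → ℝ) =>
          (Sum.elim (fun p : Fin M × Fin N => q.1 p.1 p.2) fun _ : Fin 1 => (0 : ℝ)) by
        refine measurable_pi_iff.2 fun k => ?_
        cases k <;> simp <;> fun_prop).prodMk measurable_snd)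
    exact h
  have hGm : AEStronglyMeasurable G (Measure.pi fun _ : Fin M => Measure.pi fun _ : Fin N =>
      gaussianReal 0 1) :=
    (measurable_log.comp hm.exp.stronglyMeasurable.integral_prod_right'.measurable).aestronglyMeasurable
  have e := Vale.Agent.P150.integral_comp_mp (measurePreserving_rows M N) hGm
  refine Eq.trans ?_ (e.trans ?_)
  · rfl
  unfold sphPressure
  rw [integral_const_mul, ← mul_assoc, mul_one_div_cancel hN0, one_mul]
  refine integral_congr_ae (ae_of_all _ fun g => ?_)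
  simp only [hG, P157.Sphere.sph_eq]
  have hmg : Measurable fun x : Fin N → ℝ => exp (∑ j, f (dot (nrm x) (g j))) :=
    (hm.comp (measurable_const.prodMk measurable_id)).exp
  rw [integral_map P157.Sphere.measurable_coords.aemeasurable hmg.aestronglyMeasurable]
  congr 1
  rw [average]
  refine integral_congr_ae (ae_of_all _ fun x => ?_)
  have hd : dot (P157.Sphere.coords x) (P157.Sphere.coords x) = 1 := by
    have h := P157.Sphere.norm_toLp_sq (P157.Sphere.coords x)
    have hx : ‖(WithLp.toLp 2 (P157.Sphere.coords x) : EuclideanSpace ℝ (Fin N))‖ = 1 :=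
      norm_eq_of_mem_sphere x
    rw [hx, one_pow, rad_eq] at h
    exact h.symm
  have hn : nrm (P157.Sphere.coords x) = P157.Sphere.coords x := funext fun i => by simp [nrm, hd]
  show exp _ = exp _
  congr 1
  refine Finset.sum_congr rfl fun j _ => ?_
  rw [hn]
  congr 1
  rw [eq_div_iff hs, dot, Finset.sum_mul]
  exact Finset.sum_congr rfl fun i _ => by simp only [P157.Sphere.coords]; ring

/-- The free energy of the rows on a sample, as one integral. -/
lemma rk_press {f : ℝ → ℝ} (hf : Continuous f) {B : ℝ} (hB : ∀ s, |f s| ≤ B) {N M K : ℕ}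
    (θ : Fin (K + 1) → Fin N → ℝ) :
    Rk f (sys1 (unitS θ)) lse M 0
      = ∫ ω, lse (fun y => pressF f ω (θ y)) ∂gauss ((Fin M × Fin N) ⊕ Fin 1) := by
  have e0 : (fld (fun _ : Fin (K + 1) => fun _ : Fin 1 => (0 : ℝ)) 0 lse) = lse :=
    funext fun u => fld_zero _ u
  have h := Rk_lse hf hB (sys1 (unitS θ)) (fun _ : Fin (K + 1) => fun _ : Fin 1 => (0 : ℝ)) 0 M 0
  rw [e0] at h
  rw [h]
  refine integral_congr_ae (ae_of_all _ fun ω => ?_)
  show lse _ = lse _
  congr 1
  funext y
  simp [sysU, rowInc, sys1, unitS, pressF, dot]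

lemma abs_lse_press_le {f : ℝ → ℝ} {B : ℝ} (hB : ∀ s, |f s| ≤ B) {N M K : ℕ}
    (θ : Fin (K + 1) → Fin N → ℝ) (ω : (Fin M × Fin N) ⊕ Fin 1 → ℝ) :
    |lse fun y => pressF f ω (θ y)| ≤ |lse fun _ : Fin (K + 1) => (0 : ℝ)| + M * B := by
  have := lse_lip (s := fun y => pressF f ω (θ y)) (t := fun _ : Fin (K + 1) => (0 : ℝ))
    (M := M * B) fun y => by rw [sub_zero]; exact abs_pressF_le hB ω _
  have := abs_sub_abs_le_abs_sub (lse fun y => pressF f ω (θ y))
    (lse fun _ : Fin (K + 1) => (0 : ℝ))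
  linarith

lemma measurable_lse_press {f : ℝ → ℝ} (hf : Continuous f) (N M K : ℕ) :
    Measurable fun p : (Fin (K + 1) → Fin N → ℝ) × ((Fin M × Fin N) ⊕ Fin 1 → ℝ) =>
      lse fun y => pressF f p.2 (p.1 y) := by
  have h : Measurable fun p : (Fin (K + 1) → Fin N → ℝ) × ((Fin M × Fin N) ⊕ Fin 1 → ℝ) =>
      fun y : Fin (K + 1) => pressF f p.2 (p.1 y) := by
    refine measurable_pi_iff.2 fun y => ?_
    have h1 : Measurable fun p : (Fin (K + 1) → Fin N → ℝ) × ((Fin M × Fin N) ⊕ Fin 1 → ℝ) =>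
        (p.2, p.1 y) := measurable_snd.prodMk ((measurable_pi_apply y).comp measurable_fst)
    have h2 := (measurable_pressF (f := f) hf (M := M) (N := N)).comp h1
    simp only [Function.comp_def] at h2
    exact h2
  have hl : Measurable (lse : (Fin (K + 1) → ℝ) → ℝ) := continuous_lse.measurable
  exact hl.comp h

lemma integrable_lse_press {f : ℝ → ℝ} (hf : Continuous f) {B : ℝ} (hB : ∀ s, |f s| ≤ B) {N : ℕ}
    (hN : 0 < N) (M K : ℕ) :
    Integrable (fun p : (Fin (K + 1) → Fin N → ℝ) × ((Fin M × Fin N) ⊕ Fin 1 → ℝ) =>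
      lse fun y => pressF f p.2 (p.1 y))
      ((Measure.pi fun _ : Fin (K + 1) => sph (Fin N)).prod (gauss ((Fin M × Fin N) ⊕ Fin 1))) := by
  have : Nonempty (Fin N) := ⟨⟨0, hN⟩⟩
  exact integrable_of_abs_le (measurable_lse_press hf N M K) fun p => abs_lse_press_le hB p.1 p.2

lemma press_dist {f : ℝ → ℝ} (hf : Continuous f) {B : ℝ} (hB : ∀ s, |f s| ≤ B) {N : ℕ}
    (hN : 0 < N) (M K : ℕ) :
    |∫ θ, (∫ ω, lse (fun y => pressF f ω (θ y)) ∂gauss ((Fin M × Fin N) ⊕ Fin 1))
          ∂(Measure.pi fun _ : Fin (K + 1) => sph (Fin N)) - log (K + 1)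
        - ∫ ω, log (∫ x, exp (pressF f ω x) ∂sph (Fin N)) ∂gauss ((Fin M × Fin N) ⊕ Fin 1)|
      ≤ exp (2 * (M * B)) / √((K + 1 : ℕ) : ℝ) := by
  have : Nonempty (Fin N) := ⟨⟨0, hN⟩⟩
  have h1 := integrable_lse_press hf hB hN M K
  have hFm := measurable_pressF (f := f) hf (M := M) (N := N)
  set γ := gauss ((Fin M × Fin N) ⊕ Fin 1)
  set P := Measure.pi fun _ : Fin (K + 1) => sph (Fin N)
  have hZi : Integrable (fun ω => log (∫ x, exp (pressF f ω x) ∂sph (Fin N))) γ :=
    integrable_of_abs_le (measurable_log.comp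
      hFm.exp.stronglyMeasurable.integral_prod_right'.measurable) fun ω =>
      P157.Sphere.abs_lz_le (sph (Fin N)) (hFm.comp (measurable_const.prodMk measurable_id))
        (abs_pressF_le hB ω)
  have h1' : Integrable (Function.uncurry fun (θ : Fin (K + 1) → Fin N → ℝ) ω =>
      lse fun y : Fin (K + 1) => pressF f ω (θ y)) (P.prod γ) := by
    simp only [Function.uncurry_def]
    exact h1
  rw [integral_integral_swap h1']
  have hL : Integrable (fun ω => ∫ θ, lse (fun y : Fin (K + 1) => pressF f ω (θ y)) ∂P) γ :=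
    h1.integral_prod_right
  have hL' : Integrable (fun ω => ∫ θ, lse (fun y : Fin (K + 1) => pressF f ω (θ y)) ∂P - log (K + 1)) γ :=
    hL.sub (integrable_const _)
  have h2 : (∫ ω, ∫ θ, lse (fun y : Fin (K + 1) => pressF f ω (θ y)) ∂P ∂γ) - log (K + 1)
        - ∫ ω, log (∫ x, exp (pressF f ω x) ∂sph (Fin N)) ∂γ
      = ∫ ω, ((∫ θ, lse (fun y : Fin (K + 1) => pressF f ω (θ y)) ∂P) - log (K + 1)
          - log (∫ x, exp (pressF f ω x) ∂sph (Fin N))) ∂γ := by
    rw [integral_sub hL' hZi, integral_sub hL (integrable_const _)]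
    simp
  rw [h2, ← Real.norm_eq_abs]
  refine (norm_integral_le_of_norm_le_const (C := exp (2 * (M * B)) / √((K + 1 : ℕ) : ℝ))
    (ae_of_all _ fun ω => ?_)).trans_eq (by simp)
  have hi : Integrable (fun θ : Fin (K + 1) → Fin N → ℝ => lse fun y => pressF f ω (θ y)) P :=
    by
      have hm : Measurable fun θ : Fin (K + 1) → Fin N → ℝ => (θ, ω) :=
        measurable_id.prodMk measurable_const
      have h4 := (measurable_lse_press hf N M K).comp hm
      simp only [Function.comp_def] at h4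
      exact integrable_of_abs_le h4 fun θ => abs_lse_press_le hB θ ω
  have hi' : Integrable (fun θ : Fin (K + 1) → Fin N → ℝ =>
      lse (fun y => pressF f ω (θ y)) - log (K + 1)) P := hi.sub (integrable_const _)
  have h3 : (∫ θ, lse (fun y : Fin (K + 1) => pressF f ω (θ y)) ∂P) - log (K + 1)
        - log (∫ x, exp (pressF f ω x) ∂sph (Fin N))
      = ∫ θ, (lse (fun y : Fin (K + 1) => pressF f ω (θ y)) - log (K + 1)
          - log (∫ x, exp (pressF f ω x) ∂sph (Fin N))) ∂P := by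
    rw [integral_sub hi' (integrable_const _), integral_sub hi (integrable_const _)]
    simp
  rw [h3]
  refine (norm_integral_le_integral_norm _).trans ?_
  simp only [Real.norm_eq_abs]
  exact sample_near (sph (Fin N)) (hFm.comp (measurable_const.prodMk measurable_id))
    (abs_pressF_le hB ω) K

/-- The rows on a sample give the pressure. -/
theorem avg_press {f : ℝ → ℝ} (hf : Continuous f) {B : ℝ} (hB : ∀ s, |f s| ≤ B) {α : ℝ} {N : ℕ}
    (hN : 0 < N) :
    (∀ K, Integrable (fun θ => Rk f (sys1 (unitS θ)) lse ⌊α * N⌋₊ 0) (samp N K)) ∧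
      Tendsto (fun K : ℕ => ∫ θ, Rk f (sys1 (unitS θ)) lse ⌊α * N⌋₊ 0 ∂samp N K - log (K + 1))
        atTop (𝓝 (N * sphPressure f α N)) := by
  have : Nonempty (Fin N) := ⟨⟨0, hN⟩⟩
  simp only [rk_press hf hB, samp]
  refine ⟨fun K => (integrable_lse_press hf hB hN _ K).integral_prod_left, ?_⟩
  rw [← sphPressure_eq hf hN]
  have hs : Tendsto (fun K : ℕ => exp (2 * ((⌊α * N⌋₊ : ℕ) * B)) / √((K + 1 : ℕ) : ℝ)) atTop (𝓝 0) :=
    tendsto_const_nhds.div_atTop (Real.tendsto_sqrt_atTop.comp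
      (tendsto_natCast_atTop_atTop.comp (tendsto_add_atTop_nat 1)))
  exact tendsto_iff_norm_sub_tendsto_zero.2 (squeeze_zero (fun _ => norm_nonneg _)
    (fun K => by rw [Real.norm_eq_abs]; exact press_dist hf hB hN _ K) hs)

end P157.RS.Asm

end
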