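import Vale.Agent.P157.RS.Asm.Gron
import Vale.Agent.P157.RS.Asm.Press

/-!
# P157, RS assembly: the bounds for one dimension
-/

noncomputable section

open MeasureTheory ProbabilityTheory Real Filter Topology Set
open scoped BigOperators

namespace P157.RS.Asm

open Vale.Agent.P150 (gauss)
open P157 (Em)
open P157.Conc (rsA rsTau)

lemma exists_slots (τ K₀ : ℝ) : ∃ L : ℕ, 0 < L ∧ K₀ * √(τ / L) ≤ 1 := by
  have h : Tendsto (fun L : ℕ => K₀ * √(τ / L)) atTop (𝓝 0) := by
    simpa using ((tendsto_const_div_atTop_nhds_zero_nat τ).sqrt).const_mul K₀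
  obtain ⟨L, hL, hL'⟩ :=
    ((h.eventually (eventually_le_nhds zero_lt_one)).and (eventually_gt_atTop 0)).exists
  exact ⟨L, hL', hL⟩

lemma hyb_last {Y ι : Type*} [Fintype Y] [Nonempty Y] [Fintype ι] {f : ℝ → ℝ} (hf : Continuous f)
    {B : ℝ} (hB : ∀ s, |f s| ≤ B) (θ : Y → ι → ℝ) {w : ℝ} (h0 : 0 ≤ w) (h1 : w ≤ 1) (v : ℝ)
    {n M : ℕ} (hM : (n : ℝ) * w = M) :
    |hyb f θ w v n 0 - Rk f (sys1 θ) lse M 0| ≤ B * √((M : ℝ) + 1) := by
  have hB0 : 0 ≤ B := (abs_nonneg _).trans (hB 0)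
  have hk : ∀ k, |Rk f (sys1 θ) lse k 0 - Rk f (sys1 θ) lse M 0| ≤ B * |(k : ℝ) - M| := by
    intro k
    have h := Rk_near hf hB (sys1 θ) θ 0 k M 0
    rw [fld_zero' θ] at h
    simpa using h
  have he := em_abs_le h0 h1 n
  rw [hM] at he
  have hm := mul_le_mul_of_nonneg_left he hB0
  set P := Rk f (sys1 θ) lse M 0
  simp only [hyb, Nat.cast_zero, zero_mul, fld_zero']
  have a : Em w n (fun k => Rk f (sys1 θ) lse k 0) ≤ P + B * Em w n (fun k => |(k : ℝ) - M|) := by
    rw [← Em_affine]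
    exact Em_mono h0 h1 fun k _ => by linarith [(abs_le.1 (hk k)).2]
  have b : P + -B * Em w n (fun k => |(k : ℝ) - M|) ≤ Em w n (fun k => Rk f (sys1 θ) lse k 0) := by
    rw [← Em_affine]
    exact Em_mono h0 h1 fun k _ => by linarith [(abs_le.1 (hk k)).1]
  rw [abs_le]
  constructor <;> linarith

variable {f f1 f2 f3 : ℝ → ℝ} {U V W B κ q : ℝ}

/-- The bounds for one dimension. -/
theorem fixed_dim (hg : Good f f1 f2 f3 U V W B κ) {α : ℝ} (hα : 0 < α) (hq : q ∈ Ico (0 : ℝ) 1)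
    {c Λ ε : ℝ} (hc : 0 < c) (hΛ : 0 ≤ Λ) (hε : 0 < ε) {P : ℕ} (hP : 0 < P)
    (ρ : Fin (P + 1) → ℝ) (hρ : ∀ i, ρ i ∈ Icc (-1 : ℝ) 1)
    (hρw : ∀ i, ∀ R ∈ Icc (-1 : ℝ) 1, |R - ctr P i| ≤ 2 / P → |R - ρ i * q| ≤ 1 - q)
    (hgain : ∀ i, ∀ s ∈ Icc (0 : ℝ) 1, ∃ lam ν : ℝ, lam ≤ Λ ∧ |ν| ≤ Λ ∧ c ≤ lam - |ν| ∧
      ∀ R ∈ Icc (-1 : ℝ) 1, |R - ctr P i| ≤ 2 / P →
        s * α * K2 U V B * (R - ρ i * q) ^ 2
          + site2 (α * rsTau f f1 q) (s * (tauP f f1 q (ρ i) / rsTau f f1 q) + (1 - s)) lam ν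
          - 2 * siteS q - ν * R
          ≤ -c * (ctr P i - q) ^ 2 + Λ * |R - ctr P i|)
    {N : ℕ} (hN : 0 < N)
    (hs1 : |sph1 N ((⌊α * N⌋₊ : ℝ) * rsTau f f1 q / N) - N * siteS q| ≤ N * ε)
    (hs2 : ∀ r ∈ Icc (-1 : ℝ) 1, ∀ lam ν : ℝ, lam ≤ Λ → c ≤ lam - |ν| →
      sph2 N ((⌊α * N⌋₊ : ℝ) * rsTau f f1 q / N) r ν
        ≤ N * (site2 (α * rsTau f f1 q) r lam ν + ε)) :
    (N * sphPressure f α N
        - (N * siteS q + (⌊α * N⌋₊ : ℝ) * (rsA f q - rsTau f f1 q * (1 - q) / 2))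
      ≤ N * ε + 1 + B * √((⌊α * N⌋₊ : ℝ) + 1)) ∧
    (N * siteS q + (⌊α * N⌋₊ : ℝ) * (rsA f q - rsTau f f1 q * (1 - q) / 2)
        - N * sphPressure f α N
      ≤ N * ε + B * √((⌊α * N⌋₊ : ℝ) + 1) + exp (2 * (α * K1 U V B / c)) * (1 + α * K1 U V B / c *
          (N * (4 * ε + 3 * Λ * (2 / P) + c * (8 / P) + 4 * c * (P + 1) * exp (-(ε * N)))
            + 1 + (P + 1) * (16 * B * √((⌊α * N⌋₊ : ℝ) + 1)
              + 8 * √((⌊α * N⌋₊ : ℝ) * rsTau f f1 q) + 2)))) := by
  classical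
  set τ := rsTau f f1 q
  set M := ⌊α * N⌋₊
  set r := (M : ℝ) * τ / N
  set lin := rsA f q - τ * (1 - q) / 2
  set G := α * K1 U V B / c
  set WW := 16 * B * √((M : ℝ) + 1) + 8 * √((M : ℝ) * τ) with hWW
  set E0 := exp (2 * G) with hE0
  have hτ : 0 ≤ τ := (hg.rsTau_ge ⟨hq.1, hq.2.le⟩).2.le
  have hB0 : 0 ≤ B := (abs_nonneg _).trans (hg.bd 0)
  have hK1 : 0 ≤ K1 U V B := by unfold K1; positivity
  have hK2 : 0 ≤ K2 U V B := (hg.K2_le ⟨hq.1, hq.2.le⟩).1
  have hN' : (0 : ℝ) < N := by exact_mod_cast hN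
  have hMN : (M : ℝ) ≤ α * N := Nat.floor_le (by positivity)
  have hr : 0 ≤ r := by positivity
  have hrN : r * N = M * τ := div_mul_cancel₀ _ hN'.ne'
  have hE1 : 0 ≤ E0 := (exp_pos _).le
  have hG : 0 ≤ G := by positivity
  have hsing := avg_single hN hr
  have hpress := avg_press (f := f) hg.pot.cf hg.bd (α := α) hN
  have hW0 : 0 ≤ WW := by rw [hWW]; positivity
  have key : ∀ᶠ K : ℕ in atTop,
      (∫ θ, Rk f (sys1 (unitS θ)) lse M 0 ∂samp N K - log (K + 1) - (sph1 N r + M * lin)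
        ≤ 1 + B * √((M : ℝ) + 1)
          + ∫ θ, |fld (unitS θ) (r * N) lse 0 - log (K + 1) - sph1 N r| ∂samp N K) ∧
      (sph1 N r + M * lin - (∫ θ, Rk f (sys1 (unitS θ)) lse M 0 ∂samp N K - log (K + 1))
        ≤ B * √((M : ℝ) + 1) + E0 * (1 + G *
          (N * (4 * ε + 3 * Λ * (2 / P) + c * (8 / P) + 4 * c * (P + 1) * exp (-(ε * N)))
            + 1 + (P + 1) * (WW + 2)))
          + (1 + 2 * E0 * G) *
            ∫ θ, |fld (unitS θ) (r * N) lse 0 - log (K + 1) - sph1 N r| ∂samp N K) := by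
    filter_upwards [avg_pair hN (r := r) (Λ := Λ) hr] with K hK
    have hIΦ := hsing.1 K
    have hIP := hpress.1 K
    have : IsProbabilityMeasure (samp N K) := by unfold samp; infer_instance
    obtain ⟨Cu, hCu, hup⟩ := hyb_upper (Y := Fin (K + 1)) (ι := Fin N) hg hq
    obtain ⟨Cl, hCl, hlow⟩ := hyb_lower (Y := Fin (K + 1)) (ι := Fin N) hg hq
    obtain ⟨L, hL, htiny⟩ := exists_slots τ ((Cu + Cl) * (M * τ + N + 1))
    set n := M * L with hn
    set w : ℝ := 1 / L with hw
    have hL' : (0 : ℝ) < L := by exact_mod_cast hL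
    have hL1 : (1 : ℝ) ≤ L := by exact_mod_cast hL
    have hwI : w ∈ Icc (0 : ℝ) 1 := ⟨by positivity, by rw [hw, div_le_one hL']; exact hL1⟩
    have hnw : (n : ℝ) * w = M := by rw [hn, hw]; push_cast; field_simp
    have hnv : (n : ℝ) * (w * τ) = M * τ := by rw [← mul_assoc, hnw]
    have hsv : √(w * τ) = √(τ / L) := by rw [hw, one_div_mul_eq_div]
    have hδ : (n : ℝ) * (w * τ * √(w * τ)) = M * τ * √(τ / L) := by rw [← mul_assoc, hnv, hsv]
    have hsq := sqrt_nonneg (τ / L)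
    have hMτ : 0 ≤ (M : ℝ) * τ := by positivity
    have ht1 : Cu * ((n : ℝ) * (w * τ * √(w * τ))) ≤ 1 := by
      rw [hδ]
      refine le_trans ?_ htiny
      rw [← mul_assoc]
      exact mul_le_mul_of_nonneg_right (mul_le_mul (by linarith) (by linarith) hMτ (by linarith)) hsq
    have ht2 : Cl * ((n : ℝ) * (w * τ * √(w * τ)) + ((N : ℝ) + 1) * √(w * τ)) ≤ 1 := by
      rw [hδ, hsv, ← add_mul, ← mul_assoc]
      refine le_trans ?_ htiny
      exact mul_le_mul_of_nonneg_right
        (mul_le_mul (by linarith) (by linarith) (by positivity) (by linarith)) hsq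
    have ht3 : Cl * ((n : ℝ) * (w * τ * √(w * τ))) ≤ 1 := by
      have := mul_nonneg hCl (mul_nonneg (by positivity : (0 : ℝ) ≤ (N : ℝ) + 1) (sqrt_nonneg (w * τ)))
      linarith
    have hex : ∀ i : Fin (P + 1), ∀ j : ℕ, ∃ ν : ℝ, ∃ Ψ : (Fin (K + 1) → Fin N → ℝ) → ℝ,
        Integrable Ψ (samp N K) ∧ (∀ θ, 0 ≤ Ψ θ) ∧ ∫ θ, Ψ θ ∂samp N K ≤ 2 ∧
        ∀ m : ℕ, j + m + 1 = n → ∀ θ, ∀ R ∈ Icc (-1 : ℝ) 1, |R - ctr P i| ≤ 2 / P →
          j * w * K2 U V B * (R - ρ i * q) ^ 2
            + GP (unitS θ) (n * (w * τ))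
                ((j : ℝ) / ((j + m : ℕ) : ℝ) * (tauP f f1 q (ρ i) / τ)
                  + (1 - (j : ℝ) / ((j + m : ℕ) : ℝ))) (ν * N)
            - 2 * fld (unitS θ) (n * (w * τ)) lse 0 - ν * N * ctr P i + |ν * N| * (2 / P)
            ≤ -(N * c * (ctr P i - q) ^ 2) + (N * (3 * ε + 3 * Λ * (2 / P))
                + 2 * |fld (unitS θ) (r * N) lse 0 - log (K + 1) - sph1 N r|) + Ψ θ := by
      intro i j
      rcases lt_or_ge j n with hj | hj
      swap
      · exact ⟨0, 0, integrable_zero _ _ _, fun _ => le_rfl, by simp, fun m hm => by omega⟩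
      set s := (j : ℝ) / ((n - 1 : ℕ) : ℝ) with hs
      have hj' : (j : ℝ) ≤ ((n - 1 : ℕ) : ℝ) := by exact_mod_cast (show j ≤ n - 1 by omega)
      have hsI : s ∈ Icc (0 : ℝ) 1 := ⟨by positivity, div_le_one_of_le₀ hj' (by positivity)⟩
      obtain ⟨lam, ν, hlam, hν, hlc, hgi⟩ := hgain i s hsI
      set ρ' := s * (tauP f f1 q (ρ i) / τ) + (1 - s)
      have hrt : tauP f f1 q (ρ i) / τ ∈ Icc (-1 : ℝ) 1 := abs_le.1 <| by
        rw [abs_div, abs_of_nonneg hτ]
        exact div_le_one_of_le₀ (tauP_bounds hg hq (hρ i)).1 hτ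
      have hρ' : ρ' ∈ Icc (-1 : ℝ) 1 := by
        have a1 := mul_le_mul_of_nonneg_left hrt.1 hsI.1
        have a2 := mul_le_mul_of_nonneg_left hrt.2 hsI.1
        constructor <;> linarith [hsI.2]
      obtain ⟨Ψ, hΨi, hΨ0, hΨm, hΨ⟩ := hK ρ' hρ' ν hν
      refine ⟨ν, Ψ, hΨi, hΨ0, hΨm, fun m hm θ R hR hRw => ?_⟩
      have e : j + m = n - 1 := by omega
      rw [e, hnv, ← hrN]
      have hjw : (j : ℝ) * w ≤ N * (s * α) := by
        have h1 : (j : ℝ) * w ≤ s * M := by
          rcases Nat.eq_zero_or_pos j with h | h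
          · subst h; simp [hs]
          have hpos : (0 : ℝ) < ((n - 1 : ℕ) : ℝ) := lt_of_lt_of_le (by exact_mod_cast h) hj'
          rw [hs, div_mul_eq_mul_div, le_div_iff₀ hpos, mul_assoc]
          refine mul_le_mul_of_nonneg_left ?_ (Nat.cast_nonneg j)
          rw [← hnw, mul_comm]
          exact mul_le_mul_of_nonneg_right (by exact_mod_cast Nat.sub_le n 1) hwI.1
        linarith [mul_le_mul_of_nonneg_left hMN hsI.1]
      have q1 := mul_le_mul_of_nonneg_right (mul_le_mul_of_nonneg_right hjw hK2) (sq_nonneg (R - ρ i * q))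
      have q2 := mul_le_mul_of_nonneg_left (hgi R hR hRw) hN'.le
      have q3 := hs2 ρ' hρ' lam ν hlam hlc
      have q4 := hΨ θ
      have q5 := (abs_le.1 hs1).1
      have q6 := neg_abs_le (fld (unitS θ) (r * N) lse 0 - log (K + 1) - sph1 N r)
      have q7 : ν * N * (R - ctr P i) ≤ N * (Λ * (2 / P)) := by
        refine (le_abs_self _).trans ?_
        rw [abs_mul, abs_mul, abs_of_pos hN', mul_comm (N : ℝ) _]
        refine (mul_le_mul (mul_le_mul_of_nonneg_right hν hN'.le) hRw (abs_nonneg _)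
          (by positivity)).trans_eq (by ring)
      have q8 : |ν * N| * (2 / P) ≤ N * (Λ * (2 / P)) := by
        rw [abs_mul, abs_of_pos hN']
        refine (mul_le_mul_of_nonneg_right (mul_le_mul_of_nonneg_right hν hN'.le)
          (by positivity)).trans_eq (by ring)
      have q9 := mul_le_mul_of_nonneg_left hRw (mul_nonneg hN'.le hΛ)
      linarith
    choose ν Ψ hΨi hΨ0 hΨm hΨg using hex
    set e1 := fun θ => |fld (unitS θ) (r * N) lse 0 - log (K + 1) - sph1 N r| with he1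
    have hIe : Integrable e1 (samp N K) :=
      ((hIΦ.sub (integrable_const _)).sub (integrable_const _)).abs
    set Q := fun θ => w * ∑ j ∈ Finset.range n, ∑ i, Ψ i j θ with hQ
    have hIQ : Integrable Q (samp N K) :=
      (integrable_finsetSum _ fun j _ => integrable_finsetSum _ fun i _ => hΨi i j).const_mul w
    have hQm : ∫ θ, Q θ ∂samp N K ≤ M * ((P + 1) * 2) := by
      simp only [hQ]
      rw [integral_const_mul, integral_finsetSum _ fun j _ =>
        integrable_finsetSum _ fun i _ => hΨi i j]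
      refine (mul_le_mul_of_nonneg_left (Finset.sum_le_sum (g := fun _ => ((P : ℝ) + 1) * 2)
        fun j _ => ?_) hwI.1).trans_eq ?_
      · rw [integral_finsetSum _ fun i _ => hΨi i j]
        refine (Finset.sum_le_sum fun i _ => hΨm i j).trans_eq ?_
        rw [Finset.sum_const, Finset.card_univ, nsmul_eq_mul, Fintype.card_fin]
        push_cast; ring
      · rw [Finset.sum_const, Finset.card_range, nsmul_eq_mul, ← hnw]; ring
    set X := N * (4 * ε + 3 * Λ * (2 / P) + c * (8 / P) + 4 * c * (P + 1) * exp (-(ε * N)))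
      + 1 + (P + 1) * WW with hX
    have hlo : ∀ θ, fld (unitS θ) (r * N) lse 0 + M * lin - Rk f (sys1 (unitS θ)) lse M 0
        ≤ B * √((M : ℝ) + 1) + E0 * (1 + G * X) + 2 * E0 * G * e1 θ
          + E0 * (K1 U V B / (c * N)) * Q θ := by
      intro θ
      have hu : ∀ y, dot (unitS θ y) (unitS θ y) = 1 := unitS_unit hN θ
      have h := hlow (unitS θ) hu w hwI n P hP N c ε
        (N * (3 * ε + 3 * Λ * (2 / P)) + 2 * e1 θ) hN' hc hε
        (by positivity) ρ hρ hρw (fun i j => ν i j * N) (fun i j => Ψ i j θ) (fun i j => hΨ0 i j θ)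
        fun i j m hm => hΨg i j m hm θ
      have hl := (abs_le.1 (hyb_last hg.pot.cf hg.bd (unitS θ) hwI.1 hwI.2 (w * τ) hnw)).2
      rw [hnv, ← hrN, hnw] at h
      have hpow : (1 + 2 * (w * K1 U V B / (c * N))) ^ n ≤ E0 := by
        rw [hE0]
        refine (pow_le_pow_left₀ (by have := hwI.1; positivity)
          ((le_of_eq (add_comm _ _)).trans (add_one_le_exp _)) n).trans ?_
        rw [← exp_nat_mul, exp_le_exp]
        calc (n : ℝ) * (2 * (w * K1 U V B / (c * N)))
            = 2 * ((n : ℝ) * w / N * (K1 U V B / c)) := by field_simp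
          _ ≤ 2 * (α * (K1 U V B / c)) := by
              gcongr
              rw [hnw, div_le_iff₀ hN']
              exact hMN
          _ = 2 * G := by simp only [G]; ring
      have hsum : ∑ j ∈ Finset.range n,
          (Cl * (w * τ * √(w * τ))
            + w * K1 U V B / c * (ε + (N * (3 * ε + 3 * Λ * (2 / P)) + 2 * e1 θ
                + Cl * (n * (w * τ * √(w * τ)) + ((N : ℝ) + 1) * √(w * τ))) / N
              + c * (8 / P) + 4 * c * (P + 1) * exp (-(ε * N))
              + (∑ i, (Ψ i j θ + 16 * B * √((M : ℝ) + 1) + 8 * √(r * N))) / N))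
          = Cl * ((n : ℝ) * (w * τ * √(w * τ))) + (n : ℝ) * w / N * (K1 U V B / c) *
              (N * (4 * ε + 3 * Λ * (2 / P) + c * (8 / P) + 4 * c * (P + 1) * exp (-(ε * N)))
                + 2 * e1 θ + Cl * (n * (w * τ * √(w * τ)) + ((N : ℝ) + 1) * √(w * τ)) + (P + 1) * WW)
            + K1 U V B / (c * N) * Q θ := by
        simp only [add_assoc, Finset.sum_add_distrib, hQ, add_div, mul_add, Finset.sum_const,
          Finset.card_range, Finset.card_univ, Fintype.card_fin, nsmul_eq_mul, ← Finset.mul_sum,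
          ← Finset.sum_div, hWW, hrN]
        push_cast
        field_simp
        ring
      rw [Fintype.card_fin] at h
      have h0 := h.trans (mul_le_mul_of_nonneg_right hpow (Finset.sum_nonneg fun j _ => by
        have := hwI.1
        have : 0 ≤ e1 θ := abs_nonneg _
        have : 0 ≤ ∑ i, (Ψ i j θ + 16 * B * √((M : ℝ) + 1) + 8 * √(r * N)) :=
          Finset.sum_nonneg fun i _ => by have := hΨ0 i j θ; positivity
        positivity))
      rw [hsum] at h0
      refine le_trans (b := B * √((M : ℝ) + 1) + E0 * (1 + G * (X + 2 * e1 θ)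
        + K1 U V B / (c * N) * Q θ)) ?_ (le_of_eq (by ring))
      have hM' : (n : ℝ) * w / N * (K1 U V B / c) ≤ G := by
        rw [hnw]
        refine (mul_le_mul_of_nonneg_right ((div_le_iff₀ hN').2 hMN) (by positivity)).trans_eq ?_
        simp only [G]; ring
      have h1 : Cl * ((n : ℝ) * (w * τ * √(w * τ))) + (n : ℝ) * w / N * (K1 U V B / c) *
            (N * (4 * ε + 3 * Λ * (2 / P) + c * (8 / P) + 4 * c * (P + 1) * exp (-(ε * N)))
              + 2 * e1 θ + Cl * (n * (w * τ * √(w * τ)) + ((N : ℝ) + 1) * √(w * τ)) + (P + 1) * WW)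
          ≤ 1 + G * (X + 2 * e1 θ) := by
        have : 0 ≤ e1 θ := abs_nonneg _
        have := hwI.1
        refine add_le_add ht3 (mul_le_mul hM' ?_ (by positivity) hG)
        simp only [hX]; linarith
      have h2 := mul_le_mul_of_nonneg_left (add_le_add_right h1 (K1 U V B / (c * N) * Q θ)) hE1
      have h3 : (n : ℝ) * (w * lin) = M * lin := by rw [← mul_assoc, hnw]
      simp only [lin, τ] at h0 h2 h3 hl ⊢
      linarith
    have hhi : ∀ θ : Fin (K + 1) → Fin N → ℝ, Rk f (sys1 (unitS θ)) lse M 0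
        ≤ fld (unitS θ) (r * N) lse 0 + (M * lin + 1 + B * √((M : ℝ) + 1)) := by
      intro θ
      have h := hup (unitS θ) (unitS_unit hN θ) w hwI n 0
      simp only [Nat.add_zero] at h
      rw [hnv, ← hrN, mul_add ((n : ℝ)), ← mul_assoc, hnw] at h
      have hl := (abs_le.1 (hyb_last hg.pot.cf hg.bd (unitS θ) hwI.1 hwI.2 (w * τ) hnw)).1
      have e : (n : ℝ) * (Cu * (w * τ * √(w * τ))) = Cu * ((n : ℝ) * (w * τ * √(w * τ))) := by ring
      simp only [lin]
      linarith
    have iΦ : |∫ θ, fld (unitS θ) (r * N) lse 0 ∂samp N K - log (K + 1) - sph1 N r|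
        ≤ ∫ θ, e1 θ ∂samp N K := by
      refine le_trans (le_of_eq ?_) abs_integral_le_integral_abs
      rw [integral_sub ?_ (integrable_const _), integral_sub hIΦ (integrable_const _)]
      · simp
      · exact hIΦ.sub (integrable_const _)
    obtain ⟨iΦ1, iΦ2⟩ := abs_le.1 iΦ
    constructor
    · have := integral_mono hIP (hIΦ.add (integrable_const _)) hhi
      rw [integral_add' hIΦ (integrable_const _)] at this
      simp only [integral_const, probReal_univ, one_smul] at this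
      linarith
    · have iR : Integrable (fun θ => B * √((M : ℝ) + 1) + E0 * (1 + G * X) + 2 * E0 * G * e1 θ
          + E0 * (K1 U V B / (c * N)) * Q θ) (samp N K) :=
        (((integrable_const _).add (hIe.const_mul _))).add (hIQ.const_mul _)
      have := integral_mono ((hIΦ.add (integrable_const _)).sub hIP) iR hlo
      rw [integral_sub' (hIΦ.add (integrable_const _)) hIP, integral_add' hIΦ (integrable_const _),
        integral_add ((integrable_const _).fun_add (hIe.const_mul _)) (hIQ.const_mul _),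
        integral_add (integrable_const _) (hIe.const_mul _), integral_const_mul, integral_const_mul]
        at this
      simp only [integral_const, probReal_univ, one_smul] at this
      have hQG : K1 U V B / (c * N) * ((M : ℝ) * ((P + 1) * 2)) ≤ G * ((P + 1) * 2) := by
        rw [← mul_assoc]
        refine mul_le_mul_of_nonneg_right ?_ (by positivity)
        rw [div_mul_eq_mul_div, div_le_iff₀ (by positivity)]
        calc K1 U V B * M ≤ K1 U V B * (α * N) := mul_le_mul_of_nonneg_left hMN hK1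
          _ = G * (c * N) := by simp only [G]; field_simp
      have hQ1 := mul_le_mul_of_nonneg_left
        ((mul_le_mul_of_nonneg_left hQm (by positivity : 0 ≤ K1 U V B / (c * N))).trans hQG) hE1
      simp only [hX, integral_const_mul, M] at this hQ1 iΦ1 iΦ2 ⊢
      linarith
  have l1 := hpress.2
  have l2 := hsing.2
  have s1 := abs_le.1 hs1
  constructor
  · have := le_of_tendsto_of_tendsto (l1.sub_const (sph1 N r + M * lin))
      (l2.const_add (1 + B * √((M : ℝ) + 1))) (key.mono fun K h => by linarith [h.1])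
    simp only [lin, r, hWW] at this ⊢
    linarith
  · have := le_of_tendsto_of_tendsto (l1.const_sub (sph1 N r + M * lin))
      ((l2.const_mul (1 + 2 * E0 * G)).const_add (B * √((M : ℝ) + 1) + E0 * (1 + G *
        (N * (4 * ε + 3 * Λ * (2 / P) + c * (8 / P) + 4 * c * (P + 1) * exp (-(ε * N)))
          + 1 + (P + 1) * (WW + 2))))) (key.mono fun K h => by linarith [h.2])
    simp only [lin, r, hWW] at this ⊢
    linarith

end P157.RS.Asm

end
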