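import Vale.Agent.P157.RS.Asm.Defs

/-!
# P157, RS assembly: windows away from `q` carry little mass
-/

noncomputable section

open MeasureTheory ProbabilityTheory Real Filter Topology Set
open scoped BigOperators

namespace P157.RS.Asm

open Vale.Agent.P150 (gauss)
open P157 (Em)

variable {Y ι : Type*} [Fintype Y] [Nonempty Y] [Fintype ι] {f : ℝ → ℝ} {B : ℝ}

/-- The mass of a window. -/
def mass (θ : Y → ι → ℝ) (P : ℕ) (i : Fin (P + 1)) (t : Y → ℝ) : ℝ :=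
  ∑ p ∈ win θ P i, gw t p.1 * gw t p.2

omit [Nonempty Y] in
lemma Em_sum {α : Type*} (w : ℝ) (M : ℕ) (s : Finset α) (φ : α → ℕ → ℝ) :
    Em w M (fun k => ∑ a ∈ s, φ a k) = ∑ a ∈ s, Em w M (φ a) := by
  classical
  induction s using Finset.induction with
  | empty => simp only [Finset.sum_empty]; exact Fld.Em_const 0 M
  | @insert a s ha ih =>
    simp only [Finset.sum_insert ha]
    rw [Fld.Em_add, ih]

omit [Nonempty Y] [Fintype Y] [Fintype ι] in
lemma Em_id (w : ℝ) : ∀ M : ℕ, Em w M (fun k => (k : ℝ)) = M * w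
  | 0 => by simp [Em]
  | M + 1 => by
    simp only [Em, Nat.cast_add, Nat.cast_one, Fld.Em_add, Fld.Em_const, Em_id w M]
    ring

omit [Nonempty Y] [Fintype Y] [Fintype ι] in
lemma Em_sqrt_le {w : ℝ} (hw : w ∈ Icc (0 : ℝ) 1) (j : ℕ) :
    Em w j (fun k => √(k : ℝ)) ≤ √((j : ℝ) * w + 1) := by
  have hjw : 0 ≤ (j : ℝ) * w := mul_nonneg j.cast_nonneg hw.1
  set s := √((j : ℝ) * w + 1) with hs
  have hs0 : 0 < s := sqrt_pos.2 (by linarith)
  have hss : s ^ 2 = (j : ℝ) * w + 1 := sq_sqrt (by linarith)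
  refine (Em_mono hw.1 hw.2 (ψ := fun k => s / 2 + 1 / (2 * s) * (k : ℝ)) fun k _ => ?_).trans ?_
  · rw [show s / 2 + 1 / (2 * s) * (k : ℝ) = (s ^ 2 + k) / (2 * s) by field_simp,
      le_div_iff₀ (by positivity)]
    nlinarith [sq_sqrt (Nat.cast_nonneg (α := ℝ) k), sq_nonneg (√(k : ℝ) - s)]
  · rw [Em_affine, Em_id, show s / 2 + 1 / (2 * s) * ((j : ℝ) * w)
      = (s ^ 2 + (j : ℝ) * w) / (2 * s) by field_simp, div_le_iff₀ (by positivity)]
    nlinarith

omit [Nonempty Y] [Fintype Y] [Fintype ι] in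
lemma Em_abs_le {w : ℝ} (hw : w ∈ Icc (0 : ℝ) 1) (j : ℕ) :
    Em w j (fun k => |(k : ℝ) - j * w|) ≤ √((j : ℝ) * w + 1) := by
  have hjw : 0 ≤ (j : ℝ) * w := mul_nonneg j.cast_nonneg hw.1
  set s := √((j : ℝ) * w + 1) with hs
  have hs0 : 0 < s := sqrt_pos.2 (by linarith)
  have hss : s ^ 2 = (j : ℝ) * w + 1 := sq_sqrt (by linarith)
  refine (Em_mono hw.1 hw.2
    (ψ := fun k => s / 2 + 1 / (2 * s) * ((k : ℝ) - j * w) ^ 2) fun k _ => ?_).trans ?_
  · rw [show s / 2 + 1 / (2 * s) * ((k : ℝ) - j * w) ^ 2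
      = (s ^ 2 + ((k : ℝ) - j * w) ^ 2) / (2 * s) by field_simp, le_div_iff₀ (by positivity)]
    nlinarith [sq_abs ((k : ℝ) - j * w), sq_nonneg (|(k : ℝ) - j * w| - s)]
  · rw [Em_affine, Em_sq, sub_self]
    have h1 : (j : ℝ) * (w * (1 - w)) ≤ (j : ℝ) * w :=
      mul_le_mul_of_nonneg_left (by nlinarith [hw.1]) j.cast_nonneg
    rw [show s / 2 + 1 / (2 * s) * ((0 : ℝ) ^ 2 + j * (w * (1 - w)))
      = (s ^ 2 + j * (w * (1 - w))) / (2 * s) by field_simp; ring, div_le_iff₀ (by positivity)]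
    nlinarith

omit [Nonempty Y] [Fintype Y] [Fintype ι] in
/-- A Lipschitz function of a binomial variable is close to its mean. -/
lemma Em_dev {w : ℝ} (hw : w ∈ Icc (0 : ℝ) 1) (j : ℕ) {φ : ℕ → ℝ} {C : ℝ} (hC : 0 ≤ C)
    (h : ∀ k l, |φ k - φ l| ≤ C * |(k : ℝ) - l|) :
    Em w j (fun k => |φ k - Em w j φ|) ≤ 2 * C * √((j : ℝ) * w + 1) := by
  set A := Em w j (fun k => |(k : ℝ) - j * w|)
  have hA := Em_abs_le hw j
  have key : ∀ k, |φ k - Em w j φ| ≤ C * A + C * |(k : ℝ) - j * w| := by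
    intro k
    have tri : ∀ l : ℕ, |(k : ℝ) - l| ≤ |(k : ℝ) - j * w| + |(l : ℝ) - j * w| := fun l => by
      rw [abs_sub_comm (l : ℝ)]; exact abs_sub_le _ _ _
    have up := Em_mono hw.1 hw.2 (M := j) (φ := φ)
      (ψ := fun l => (φ k + C * |(k : ℝ) - j * w|) + C * |(l : ℝ) - j * w|) fun l _ => by
        have := (abs_le.1 (h k l)).1
        have := mul_le_mul_of_nonneg_left (tri l) hC
        nlinarith
    have dn := Em_mono hw.1 hw.2 (M := j) (ψ := φ)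
      (φ := fun l => (φ k - C * |(k : ℝ) - j * w|) + -C * |(l : ℝ) - j * w|) fun l _ => by
        have := (abs_le.1 (h k l)).2
        have := mul_le_mul_of_nonneg_left (tri l) hC
        nlinarith
    rw [Em_affine] at up dn
    rw [abs_le]
    constructor <;> linarith
  refine (Em_mono hw.1 hw.2 fun k _ => key k).trans ?_
  rw [Em_affine]
  have := mul_le_mul_of_nonneg_left hA hC
  linarith

lemma exp_lseW (a : Y → ι → ℝ) (s : Finset (Y × Y)) (hs : s.Nonempty) (f : ℝ → ℝ) (v : ℝ) (k : ℕ)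
    (ω : (Fin k × ι) ⊕ ι → ℝ) :
    exp (lse (sysU f (sysW a s) (zsum a s) v k 0 ω) - 2 * lse (sysU f (sys1 a) a v k 0 ω))
      = ∑ p ∈ s, gw (sysU f (sys1 a) a v k 0 ω) p.1 * gw (sysU f (sys1 a) a v k 0 ω) p.2 := by
  set U := sysU f (sys1 a) a v k 0 ω with hU
  have hp : ∀ p : s, sysU f (sysW a s) (zsum a s) v k 0 ω p = U p.1.1 + U p.1.2 := by
    intro p
    simp only [hU, sysU, rowInc, sysW, zsum, sys1, Pi.zero_apply, zero_add, dot, Fin.sum_univ_two,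
      Matrix.cons_val_zero, Matrix.cons_val_one, Fin.sum_univ_one, Finset.sum_add_distrib,
      add_mul, mul_add]
    ring
  have hZ := Vale.Agent.P150.sum_exp_pos U
  have hS : 0 < ∑ p : s, exp (U p.1.1 + U p.1.2) :=
    Finset.sum_pos (fun p _ => exp_pos _) (Finset.univ_nonempty_iff.2 hs.coe_sort)
  rw [two_mul, exp_sub, exp_add, lse, lse, exp_log (Vale.Agent.P150.sum_exp_pos U)]
  simp only [hp]
  rw [exp_log hS, Finset.sum_coe_sort s fun p : Y × Y => exp (U p.1 + U p.2), Finset.sum_div]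
  refine Finset.sum_congr rfl fun p _ => ?_
  rw [gw, gw, exp_add]
  field_simp

omit [Nonempty Y] in
lemma mass_nonneg (θ : Y → ι → ℝ) (P : ℕ) (i : Fin (P + 1)) (t : Y → ℝ) : 0 ≤ mass θ P i t :=
  Finset.sum_nonneg fun _ _ => mul_nonneg (Fld.gw_nonneg _ _) (Fld.gw_nonneg _ _)

lemma sum_mass (θ : Y → ι → ℝ) (P : ℕ) (t : Y → ℝ) : ∑ i, mass θ P i t = 1 := by
  simp only [mass, win, Finset.sum_fiberwise, Fintype.sum_prod_type, ← Finset.mul_sum, Fld.sum_gw,
    mul_one]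

lemma mass_le_one (θ : Y → ι → ℝ) (P : ℕ) (i : Fin (P + 1)) (t : Y → ℝ) : mass θ P i t ≤ 1 :=
  (sum_mass θ P t).symm ▸ Finset.single_le_sum (f := fun i => mass θ P i t)
    (fun l _ => mass_nonneg θ P l t) (Finset.mem_univ i)

lemma continuous_gw (y : Y) : Continuous fun t : Y → ℝ => gw t y :=
  Continuous.div (by fun_prop) (by fun_prop) fun t => (Vale.Agent.P150.sum_exp_pos t).ne'

lemma integrable_mass (hf : Continuous f) (θ : Y → ι → ℝ) (v : ℝ) (P k : ℕ) (i : Fin (P + 1)) :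
    Integrable (fun ω => mass θ P i (sysU f (sys1 θ) θ v k 0 ω)) (gauss ((Fin k × ι) ⊕ ι)) := by
  have hc : Continuous fun ω => sysU f (sys1 θ) θ v k 0 ω := continuous_sysU hf _ _ _ _ _
  have hm : Continuous fun ω => mass θ P i (sysU f (sys1 θ) θ v k 0 ω) :=
    continuous_finsetSum _ fun p _ =>
      ((continuous_gw p.1).comp hc).mul ((continuous_gw p.2).comp hc)
  refine Integrable.of_bound hm.aestronglyMeasurable 1 (ae_of_all _ fun ω => ?_)
  rw [Real.norm_eq_abs, abs_of_nonneg (mass_nonneg θ P i _)]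
  exact mass_le_one θ P i _

/-- The mean mass of a window. -/
def massE (f : ℝ → ℝ) (θ : Y → ι → ℝ) (v : ℝ) (P : ℕ) (i : Fin (P + 1)) (k : ℕ) : ℝ :=
  ∫ ω, mass θ P i (sysU f (sys1 θ) θ v k 0 ω) ∂gauss ((Fin k × ι) ⊕ ι)

omit [Nonempty Y] [Fintype Y] [Fintype ι] in
lemma ctr_mem {P : ℕ} (hP : 0 < P) (i : Fin (P + 1)) : |ctr P i| ≤ 1 := by
  have h0 : (0 : ℝ) < P := by exact_mod_cast hP
  have hi0 : 0 ≤ (i : ℝ) * (2 / P) := by positivity
  have hi2 : (i : ℝ) * (2 / P) ≤ 2 := by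
    rw [← mul_div_assoc, div_le_iff₀ h0]
    have : (i : ℝ) ≤ P := by exact_mod_cast Nat.lt_succ_iff.1 i.isLt
    linarith
  rw [ctr, abs_le]
  constructor <;> linarith

/-- The mean deviations of the pair and of the single system. -/
lemma dev_pair (hf : Continuous f) (hB : ∀ s, |f s| ≤ B) (θ : Y → ι → ℝ)
    (hθ : ∀ y, dot (θ y) (θ y) = 1) (s : Finset (Y × Y)) [Nonempty s] {v : ℝ} (hv : 0 ≤ v) (k : ℕ) :
    ∫ ω, |lse (sysU f (sysW θ s) (zsum θ s) v k 0 ω) - Rk f (sysW θ s) (fld (zsum θ s) v lse) k 0|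
          ∂gauss ((Fin k × ι) ⊕ ι)
      + 2 * ∫ ω, |lse (sysU f (sys1 θ) θ v k 0 ω) - Rk f (sys1 θ) (fld θ v lse) k 0|
          ∂gauss ((Fin k × ι) ⊕ ι)
      ≤ 8 * B * √(k : ℝ) + 8 * √v := by
  have d1 := lse_dev hf hB (sysW θ s) (zsum θ s) (c := 2) zero_le_two (fun p => by
    have e1 := hθ p.1.1
    have e2 := hθ p.1.2
    have := Finset.sum_le_sum (s := Finset.univ) fun l _ =>
      (by nlinarith [sq_nonneg (θ p.1.1 l - θ p.1.2 l)] :
        (θ p.1.1 l + θ p.1.2 l) * (θ p.1.1 l + θ p.1.2 l)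
          ≤ 2 * (θ p.1.1 l * θ p.1.1 l) + 2 * (θ p.1.2 l * θ p.1.2 l))
    rw [Finset.sum_add_distrib, ← Finset.mul_sum, ← Finset.mul_sum] at this
    simp only [dot, zsum] at e1 e2 ⊢
    linarith) hv k 0
  have d2 := lse_dev hf hB (sys1 θ) θ (c := 1) zero_le_one (fun y => by rw [hθ y]; norm_num) hv k 0
  simp only [Fintype.card_fin, Nat.cast_ofNat, Nat.cast_one] at d1 d2
  linarith

lemma point_le {c d ε D N M X Ξ a₁ a₂ a₃ a₄ L₁ L₂ G g Gb gb : ℝ} (hc : 0 < c) (hd : d ≤ 4)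
    (hε : 0 < ε) (hD : 0 ≤ D) (hN : 0 < N) (hΞ : 0 ≤ Ξ) (hM : M = exp X)
    (hM1 : M ≤ 1) (hX : X = L₁ - 2 * L₂) (hgain : Gb - 2 * gb ≤ -(N * c * d) + D + Ξ)
    (h1 : a₁ = |G - Gb|) (h2 : a₂ = |g - gb|) (h3 : a₃ = |L₁ - G|) (h4 : a₄ = |L₂ - g|) :
    (c * d) * M ≤ ((ε + D / N) * M + (4 * c * exp (-(ε * N)) + (Ξ + a₁ + 2 * a₂) / N))
      + (a₃ + 2 * a₄) / N := by
  have hM0 : 0 ≤ M := hM ▸ (exp_pos X).le
  have b1 : 0 ≤ a₁ := h1 ▸ abs_nonneg _
  have b2 : 0 ≤ a₂ := h2 ▸ abs_nonneg _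
  have b3 : 0 ≤ a₃ := h3 ▸ abs_nonneg _
  have b4 : 0 ≤ a₄ := h4 ▸ abs_nonneg _
  have r0 : 0 ≤ (a₃ + 2 * a₄) / N := by positivity
  have r1 : 0 ≤ (Ξ + a₁ + 2 * a₂) / N := by positivity
  have r2 : 0 ≤ (ε + D / N) * M := by positivity
  have r3 : 0 ≤ 4 * c * exp (-(ε * N)) := by positivity
  rcases le_or_gt X (-(ε * N)) with h | h
  · have : (c * d) * M ≤ c * 4 * exp (-(ε * N)) :=
      mul_le_mul (mul_le_mul_of_nonneg_left hd hc.le) (hM ▸ exp_le_exp.2 h) hM0 (by positivity)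
    linarith
  · have key : N * (c * d) ≤ ε * N + D + (Ξ + a₁ + 2 * a₂ + (a₃ + 2 * a₄)) := by
      have := le_abs_self (L₁ - G)
      have := le_abs_self (G - Gb)
      have := neg_abs_le (L₂ - g)
      have := neg_abs_le (g - gb)
      subst hX h1 h2 h3 h4
      linarith
    have h' : c * d ≤ (ε + D / N) + (Ξ + a₁ + 2 * a₂ + (a₃ + 2 * a₄)) / N := by
      rw [show (ε + D / N) + (Ξ + a₁ + 2 * a₂ + (a₃ + 2 * a₄)) / N
          = (ε * N + D + (Ξ + a₁ + 2 * a₂ + (a₃ + 2 * a₄))) / N by field_simp,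
        le_div_iff₀ hN]
      linarith
    have k1 := mul_le_mul_of_nonneg_right h' hM0
    have k2 : (Ξ + a₁ + 2 * a₂ + (a₃ + 2 * a₄)) / N * M
        ≤ (Ξ + a₁ + 2 * a₂ + (a₃ + 2 * a₄)) / N := mul_le_of_le_one_right (by positivity) hM1
    rw [add_div] at k2
    rw [add_div] at k1
    linarith

/-- One window, given the number of rows. -/
lemma window_k (hf : Continuous f) (hB : ∀ s, |f s| ≤ B) (θ : Y → ι → ℝ)
    (hθ : ∀ y, dot (θ y) (θ y) = 1) {P : ℕ} (i : Fin (P + 1)) [Nonempty (win θ P i)] {v : ℝ}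
    (hv : 0 ≤ v) (k : ℕ) {c d ε D N Ξ Gb gb : ℝ} (hc : 0 < c) (hd : d ≤ 4) (hε : 0 < ε)
    (hD : 0 ≤ D) (hN : 0 < N) (hΞ : 0 ≤ Ξ) (hgain : Gb - 2 * gb ≤ -(N * c * d) + D + Ξ) :
    (c * d) * massE f θ v P i k ≤ (ε + D / N) * massE f θ v P i k + 4 * c * exp (-(ε * N))
      + (Ξ + |Rk f (sysW θ (win θ P i)) (fld (zsum θ (win θ P i)) v lse) k 0 - Gb|
        + 2 * |Rk f (sys1 θ) (fld θ v lse) k 0 - gb| + (8 * B * √(k : ℝ) + 8 * √v)) / N := by
  set μ := gauss ((Fin k × ι) ⊕ ι)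
  have hs : (win θ P i).Nonempty := Finset.nonempty_coe_sort.1 inferInstance
  have hI1 := ((integrable_sys_lse hf hB (sysW θ (win θ P i)) (zsum θ (win θ P i)) v k 0).sub
    (integrable_const (Rk f (sysW θ (win θ P i)) (fld (zsum θ (win θ P i)) v lse) k 0))).abs
  have hI2 := (((integrable_sys_lse hf hB (sys1 θ) θ v k 0).sub
    (integrable_const (Rk f (sys1 θ) (fld θ v lse) k 0))).abs).const_mul 2
  have hIm := integrable_mass hf θ v P k i
  have hI12 : Integrable (fun ω =>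
      |lse (sysU f (sysW θ (win θ P i)) (zsum θ (win θ P i)) v k 0 ω)
          - Rk f (sysW θ (win θ P i)) (fld (zsum θ (win θ P i)) v lse) k 0|
        + 2 * |lse (sysU f (sys1 θ) θ v k 0 ω) - Rk f (sys1 θ) (fld θ v lse) k 0|) μ := hI1.add hI2
  have hIb : Integrable (fun ω => (ε + D / N) * mass θ P i (sysU f (sys1 θ) θ v k 0 ω)) μ :=
    hIm.const_mul _
  have hIa : Integrable (fun ω => (ε + D / N) * mass θ P i (sysU f (sys1 θ) θ v k 0 ω)
      + (4 * c * exp (-(ε * N))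
        + (Ξ + |Rk f (sysW θ (win θ P i)) (fld (zsum θ (win θ P i)) v lse) k 0 - Gb|
          + 2 * |Rk f (sys1 θ) (fld θ v lse) k 0 - gb|) / N)) μ :=
    hIb.add (integrable_const _)
  have hmono := integral_mono (hIm.const_mul (c * d)) (hIa.add (hI12.div_const N)) fun ω =>
    point_le hc hd hε hD hN hΞ (exp_lseW θ (win θ P i) hs f v k ω).symm (mass_le_one θ P i _) rfl
      hgain rfl rfl rfl rfl
  rw [integral_add' hIa (hI12.div_const N), integral_add hIb (integrable_const _),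
    integral_const_mul, integral_const_mul, integral_div] at hmono
  simp only [integral_const, probReal_univ, one_smul] at hmono
  have e12 := integral_add (μ := μ) hI1 hI2
  simp only [integral_const_mul, Pi.sub_apply] at e12
  have d3 := div_le_div_of_nonneg_right
    ((e12.trans_le (dev_pair hf hB θ hθ (win θ P i) hv k))) hN.le
  rw [add_div _ (8 * B * √(k : ℝ) + 8 * √v)]
  simp only [massE]
  linarith

/-- One window. -/
lemma window_le (hf : Continuous f) (hB : ∀ s, |f s| ≤ B) (θ : Y → ι → ℝ)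
    (hθ : ∀ y, dot (θ y) (θ y) = 1) {P : ℕ} (i : Fin (P + 1)) {w : ℝ}
    (hw : w ∈ Icc (0 : ℝ) 1) {v : ℝ} (hv : 0 ≤ v) (j : ℕ) {c d ε D N Ξ : ℝ} (hc : 0 < c)
    (hd : d ≤ 4) (hε : 0 < ε) (hD : 0 ≤ D) (hN : 0 < N) (hΞ : 0 ≤ Ξ)
    (hgain : (win θ P i).Nonempty →
      Em w j (fun k => Rk f (sysW θ (win θ P i)) (fld (zsum θ (win θ P i)) v lse) k 0)
          - 2 * Em w j (fun k => Rk f (sys1 θ) (fld θ v lse) k 0) ≤ -(N * c * d) + D + Ξ) :
    (c * d) * Em w j (massE f θ v P i) ≤ (ε + D / N) * Em w j (massE f θ v P i)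
      + 4 * c * exp (-(ε * N)) + (Ξ + 16 * B * √((j : ℝ) * w + 1) + 8 * √v) / N := by
  have hB0 : 0 ≤ B := (abs_nonneg _).trans (hB 0)
  by_cases hs : (win θ P i).Nonempty
  swap
  · have h0 : massE f θ v P i = fun _ => 0 := funext fun k => by
      simp [massE, mass, Finset.not_nonempty_iff_eq_empty.1 hs]
    rw [h0, Fld.Em_const, mul_zero, mul_zero, zero_add]
    exact add_nonneg (by positivity) (div_nonneg (by positivity) hN.le)
  have : Nonempty (win θ P i) := hs.coe_sort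
  have sm : ∀ (a : ℝ) (φ : ℕ → ℝ), Em w j (fun k => a * φ k) = a * Em w j φ := fun a φ => by
    simpa using Em_affine (w := w) 0 a (M := j) φ
  have dv : ∀ φ : ℕ → ℝ, Em w j (fun k => φ k / N) = Em w j φ / N := fun φ => by
    simp only [div_eq_inv_mul]; exact sm _ φ
  have hdG := Em_dev hw j
    (φ := fun k => Rk f (sysW θ (win θ P i)) (fld (zsum θ (win θ P i)) v lse) k 0)
    (C := 2 * B) (by positivity) fun k l => by
      simpa using Rk_near hf hB (sysW θ (win θ P i)) (zsum θ (win θ P i)) v k l 0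
  have hdg := Em_dev hw j (φ := fun k => Rk f (sys1 θ) (fld θ v lse) k 0) hB0 fun k l => by
    simpa using Rk_near hf hB (sys1 θ) θ v k l 0
  have hk := Em_mono hw.1 hw.2 (M := j) fun k _ =>
    window_k hf hB θ hθ i hv k hc hd hε hD hN hΞ (hgain hs)
  rw [sm, Fld.Em_add, Fld.Em_add, Fld.Em_const, sm, dv] at hk
  simp only [Fld.Em_add, Fld.Em_const, sm] at hk
  refine hk.trans (add_le_add le_rfl (div_le_div_of_nonneg_right ?_ hN.le))
  have := mul_le_mul_of_nonneg_left (Em_sqrt_le hw j) (by positivity : 0 ≤ 8 * B)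
  linarith

/-- The squared deviation is carried by the windows. -/
lemma ovq_le (hf : Continuous f) (hB : ∀ s, |f s| ≤ B) (θ : Y → ι → ℝ)
    (hθ : ∀ y, dot (θ y) (θ y) = 1) {P : ℕ} (hP : 0 < P) {q : ℝ} (hq : q ∈ Icc (0 : ℝ) 1)
    {w : ℝ} (hw : w ∈ Icc (0 : ℝ) 1) (v : ℝ) (j m : ℕ) :
    ovq f θ w v q j m
      ≤ ∑ i, (ctr P i - q) ^ 2 * Em w j (massE f θ (m * v) P i) + 8 / P := by
  have sm : ∀ (a : ℝ) (φ : ℕ → ℝ), Em w j (fun k => a * φ k) = a * Em w j φ := fun a φ => by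
    simpa using Em_affine (w := w) 0 a (M := j) φ
  have hsm : ∑ i, (ctr P i - q) ^ 2 * Em w j (massE f θ (m * v) P i)
      = Em w j (fun k => ∑ i, (ctr P i - q) ^ 2 * massE f θ (m * v) P i k) := by
    rw [Em_sum]; simp only [sm]
  rw [hsm, ← Fld.Em_const (w := w) (8 / P) j, ← Fld.Em_add]
  refine Em_mono hw.1 hw.2 fun k _ => ?_
  have hΦc : Continuous fun t : Y → ℝ => avgC t (sqOv θ q) :=
    continuous_finsetSum _ fun x _ => continuous_finsetSum _ fun y _ =>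
      ((continuous_gw x).mul (continuous_gw y)).mul continuous_const
  have hsq : ∀ x y, sqOv θ q x y ≤ 4 := fun x y => by
    have := abs_le.1 (abs_ovl_le hθ (x, y))
    simp only [ovl] at this
    simp only [sqOv]
    nlinarith [hq.1, hq.2]
  have hΦb : ∀ t : Y → ℝ, |avgC t (sqOv θ q)| ≤ 4 + ∑ y, |t y| := fun t => by
    have h0 : 0 ≤ avgC t (sqOv θ q) := Finset.sum_nonneg fun x _ => Finset.sum_nonneg fun y _ =>
      mul_nonneg (mul_nonneg (Fld.gw_nonneg _ _) (Fld.gw_nonneg _ _)) (sq_nonneg _)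
    have h4 : avgC t (sqOv θ q) ≤ 4 := by
      refine (Finset.sum_le_sum fun x _ => Finset.sum_le_sum fun y _ =>
        mul_le_mul_of_nonneg_left (hsq x y)
          (mul_nonneg (Fld.gw_nonneg t x) (Fld.gw_nonneg t y))).trans_eq ?_
      simp only [← Finset.sum_mul, ← Finset.mul_sum, Fld.sum_gw, mul_one, one_mul]
    rw [abs_of_nonneg h0]
    have : 0 ≤ ∑ y, |t y| := by positivity
    linarith
  rw [Rk_fld_eq hf hB (sys1 θ) θ _ _ hΦc hΦb k 0]
  simp only [massE, ← integral_const_mul]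
  rw [← integral_finsetSum _ fun i _ => (integrable_mass hf θ _ P k i).const_mul _]
  have hI := integrable_sys hf hB (sys1 θ) θ ((m : ℝ) * v) k 0 hΦc hΦb
  have hIs : Integrable (fun ω => ∑ i, (ctr P i - q) ^ 2
      * mass θ P i (sysU f (sys1 θ) θ ((m : ℝ) * v) k 0 ω)) (gauss ((Fin k × ι) ⊕ ι)) :=
    integrable_finsetSum _ fun i _ => (integrable_mass hf θ _ P k i).const_mul _
  refine (integral_mono hI (hIs.add (integrable_const (8 / (P : ℝ)))) fun ω => ?_).trans_eq ?_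
  swap
  · rw [integral_add' hIs (integrable_const _)]; simp
  set t := sysU f (sys1 θ) θ ((m : ℝ) * v) k 0 ω
  simp only [Pi.add_apply, avgC]
  rw [← Fintype.sum_prod_type' (fun x y => gw t x * gw t y * sqOv θ q x y),
    ← Finset.sum_fiberwise Finset.univ (fun p => idx P (ovl θ p))]
  have h1 : (8 : ℝ) / P = ∑ i, 8 / (P : ℝ) * mass θ P i t := by
    rw [← Finset.mul_sum, sum_mass, mul_one]
  rw [h1, ← Finset.sum_add_distrib]
  refine Finset.sum_le_sum fun i _ => ?_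
  rw [← add_mul, mass, Finset.mul_sum]
  refine Finset.sum_le_sum fun p hp => ?_
  have hi : idx P (ovl θ p) = i := (Finset.mem_filter.1 hp).2
  have hR := abs_le.1 (abs_ovl_le hθ p)
  have hδ := abs_sub_ctr_le hP (abs_ovl_le hθ p)
  rw [hi] at hδ
  have hctr := abs_le.1 (ctr_mem hP i)
  have hS : |ovl θ p + ctr P i - 2 * q| ≤ 4 := by
    rw [abs_le]
    constructor <;> linarith [hq.1, hq.2]
  have hmul : (ovl θ p - ctr P i) * (ovl θ p + ctr P i - 2 * q) ≤ 2 / P * 4 :=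
    (le_abs_self _).trans (by rw [abs_mul]; exact mul_le_mul hδ hS (abs_nonneg _) (by positivity))
  have hsqd : sqOv θ q p.1 p.2 ≤ (ctr P i - q) ^ 2 + 8 / P := by
    show (ovl θ p - q) ^ 2 ≤ _
    have e : (ovl θ p - q) ^ 2 = (ctr P i - q) ^ 2
        + (ovl θ p - ctr P i) * (ovl θ p + ctr P i - 2 * q) := by ring
    rw [e, show (8 : ℝ) / P = 2 / P * 4 by ring]
    linarith
  rw [mul_comm ((ctr P i - q) ^ 2 + 8 / P)]
  exact mul_le_mul_of_nonneg_left hsqd (mul_nonneg (Fld.gw_nonneg _ _) (Fld.gw_nonneg _ _))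

/-- A gain in every window bounds the squared deviation of the overlap. -/
theorem mass_bound (hf : Continuous f) (hB : ∀ s, |f s| ≤ B) (θ : Y → ι → ℝ)
    (hθ : ∀ y, dot (θ y) (θ y) = 1) {P : ℕ} (hP : 0 < P) {q : ℝ} (hq : q ∈ Icc (0 : ℝ) 1)
    {w v : ℝ} (hw : w ∈ Icc (0 : ℝ) 1) (hv : 0 ≤ v) {j m : ℕ} {c ε D N : ℝ} (hc : 0 < c)
    (hε : 0 < ε) (hD : 0 ≤ D) (hN : 0 < N) (Ξ : Fin (P + 1) → ℝ) (hΞ : ∀ i, 0 ≤ Ξ i)
    (hwin : ∀ i, (win θ P i).Nonempty →
      Em w j (fun k => Rk f (sysW θ (win θ P i)) (fld (zsum θ (win θ P i)) (m * v) lse) k 0)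
          - 2 * hyb f θ w v j m
        ≤ -(N * c * (ctr P i - q) ^ 2) + D + Ξ i) :
    c * ovq f θ w v q j m ≤ ε + D / N + c * (8 / P) + 4 * c * (P + 1) * exp (-(ε * N))
      + (∑ i, (Ξ i + 16 * B * √((j : ℝ) * w + 1) + 8 * √((m : ℝ) * v))) / N := by
  have hmv : 0 ≤ (m : ℝ) * v := mul_nonneg m.cast_nonneg hv
  have hterm : ∀ i, c * ((ctr P i - q) ^ 2 * Em w j (massE f θ (m * v) P i))
      ≤ (ε + D / N) * Em w j (massE f θ (m * v) P i) + 4 * c * exp (-(ε * N))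
        + (Ξ i + 16 * B * √((j : ℝ) * w + 1) + 8 * √((m : ℝ) * v)) / N := by
    intro i
    rw [← mul_assoc]
    refine window_le hf hB θ hθ i hw hmv j hc ?_ hε hD hN (hΞ i) (hwin i)
    have := abs_le.1 (ctr_mem hP i)
    nlinarith [hq.1, hq.2]
  have hone : ∑ i, Em w j (massE f θ (m * v) P i) = 1 := by
    rw [← Em_sum]
    refine Eq.trans ?_ (Fld.Em_const (w := w) 1 j)
    refine Em_congr fun k _ => ?_
    simp only [massE]
    rw [← integral_finsetSum _ fun i _ => integrable_mass hf θ _ P k i]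
    simp only [sum_mass, integral_const, probReal_univ, one_smul]
  refine (mul_le_mul_of_nonneg_left (ovq_le hf hB θ hθ hP hq hw v j m) hc.le).trans ?_
  rw [mul_add, Finset.mul_sum]
  refine (add_le_add (Finset.sum_le_sum fun i _ => hterm i) le_rfl).trans_eq ?_
  rw [Finset.sum_add_distrib, Finset.sum_add_distrib, ← Finset.mul_sum, hone, ← Finset.sum_div,
    Finset.sum_const, Finset.card_univ, Fintype.card_fin, nsmul_eq_mul]
  push_cast
  ring

end P157.RS.Asm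

end
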