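import Vale.Agent.P157.RS.Asm.Pair
import Vale.Agent.P157.RS.Asm.Mass

/-!
# P157, RS assembly: the interpolation for a fixed sample of states
-/

noncomputable section

open MeasureTheory ProbabilityTheory Real Filter Topology Set
open scoped BigOperators

namespace P157.RS.Asm

open Vale.Agent.P150 (gauss)
open P157 (Em)
open P157.Conc (rsA rsTau)

lemma em_abs_le {w : ℝ} (h0 : 0 ≤ w) (h1 : w ≤ 1) (n : ℕ) :
    Em w n (fun k => |(k : ℝ) - n * w|) ≤ √((n : ℝ) * w + 1) := by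
  set b := √((n : ℝ) * w + 1)
  have hnw : 0 ≤ (n : ℝ) * w := by positivity
  have hb : 0 < b := sqrt_pos.2 (by linarith)
  refine (Em_mono h0 h1 (ψ := fun k => b / 2 + (2 * b)⁻¹ * ((k : ℝ) - n * w) ^ 2)
    fun k _ => ?_).trans ?_
  · rw [← mul_le_mul_iff_of_pos_left (by linarith : 0 < 2 * b), mul_add, ← mul_assoc,
      mul_inv_cancel₀ (by linarith), one_mul, ← sq_abs ((k : ℝ) - n * w)]
    nlinarith [sq_nonneg (|(k : ℝ) - n * w| - b)]
  · rw [Em_affine, Em_sq, sub_self, ← le_sub_iff_add_le', inv_mul_le_iff₀ (by linarith)]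
    have := sq_sqrt (by linarith : (0 : ℝ) ≤ (n : ℝ) * w + 1)
    nlinarith [mul_nonneg hnw h0]

lemma gronwall {x : ℝ} (hx : 0 ≤ x) {a b : ℕ → ℝ} (n : ℕ) (h0 : a 0 ≤ 0)
    (hb : ∀ j < n, 0 ≤ b j) (h : ∀ j < n, a (j + 1) ≤ (1 + x) * a j + b j) :
    a n ≤ (1 + x) ^ n * ∑ j ∈ Finset.range n, b j := by
  induction n with
  | zero => simpa using h0
  | succ n ih =>
    have ih := ih (fun j hj => hb j (by omega)) fun j hj => h j (by omega)
    have h1 := (h n (by omega)).trans (add_le_add_left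
      (mul_le_mul_of_nonneg_left ih (by linarith)) _)
    have h2 : b n ≤ (1 + x) ^ (n + 1) * b n :=
      le_mul_of_one_le_left (hb n (by omega)) (one_le_pow₀ (by linarith))
    rw [Finset.sum_range_succ, mul_add, pow_succ' (1 + x) n, mul_assoc]
    rw [pow_succ' (1 + x) n] at h2
    linarith

variable {Y ι : Type*} [Fintype Y] [Nonempty Y] [Fintype ι] {f f1 f2 f3 : ℝ → ℝ}
  {U V W B κ q : ℝ}

lemma sum_gw_one (u : Y → ℝ) : ∑ y, gw u y = 1 := by
  simp only [gw, ← Finset.sum_div]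
  exact div_self (Vale.Agent.P150.sum_exp_pos u).ne'

/-- One slot against one small field, in both directions. -/
theorem slot_both (hg : Good f f1 f2 f3 U V W B κ) (hq : q ∈ Ico (0 : ℝ) 1) :
    ∃ C, 0 ≤ C ∧ ∀ θ : Y → ι → ℝ, (∀ y, dot (θ y) (θ y) = 1) → ∀ w : ℝ, 0 ≤ w → ∀ u : Y → ℝ,
      w * T f (sys1 θ) lse u + (1 - w) * lse u ≤ fld θ (w * rsTau f f1 q) lse u
          + (w * (rsA f q - rsTau f f1 q * (1 - q) / 2)
            + C * (w * rsTau f f1 q * √(w * rsTau f f1 q))) ∧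
      fld θ (w * rsTau f f1 q) lse u + (w * (rsA f q - rsTau f f1 q * (1 - q) / 2)
            - C * (w * rsTau f f1 q * √(w * rsTau f f1 q)))
        ≤ w * T f (sys1 θ) lse u + (1 - w) * lse u + w * K1 U V B * avgC u (sqOv θ q) := by
  obtain ⟨C, hC⟩ := fld_small_unif (Y := Y) (κ := ι) 1
  refine ⟨max C 0, le_max_right _ _, fun θ hθ w hw u => ?_⟩
  set τ := rsTau f f1 q
  have hτ : 0 ≤ τ := (hg.rsTau_ge ⟨hq.1, hq.2.le⟩).2.le
  have hv : 0 ≤ w * τ := mul_nonneg hw hτ
  have h := abs_le.1 ((hC θ (cbd_unit hθ) _ hv u).trans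
    (mul_le_mul_of_nonneg_right (le_max_left C 0) (by positivity)))
  have e : avgI u (fun y => dot (θ y) (θ y)) = 1 := by
    simp only [avgI, hθ, mul_one, sum_gw_one]
  rw [e] at h
  have hu := row1_upper hg (sys1 θ) (fun y _ => hθ y) hq u
  have hl := row1_lower hg (sys1 θ) (fun y _ => hθ y) hq u
  have m1 := mul_le_mul_of_nonneg_left hu hw
  have m2 := mul_le_mul_of_nonneg_left hl hw
  simp only [sys1] at m1 m2
  change _ ∧ _ ≤ _ + w * K1 U V B * avgC u fun y z => (dot (θ y) (θ z) - q) ^ 2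
  simp only [τ] at h hu hl m1 m2 ⊢
  constructor <;> linarith [h.1, h.2]

lemma fld_zero' (θ : Y → ι → ℝ) : fld θ 0 lse = (lse : (Y → ℝ) → ℝ) := funext fun t => fld_zero θ t

/-- Rows lie below fields. -/
theorem hyb_upper (hg : Good f f1 f2 f3 U V W B κ) (hq : q ∈ Ico (0 : ℝ) 1) :
    ∃ C, 0 ≤ C ∧ ∀ θ : Y → ι → ℝ, (∀ y, dot (θ y) (θ y) = 1) → ∀ w ∈ Icc (0 : ℝ) 1, ∀ j m : ℕ,
      hyb f θ w (w * rsTau f f1 q) j m ≤ fld θ ((j + m : ℕ) * (w * rsTau f f1 q)) lse 0
        + j * (w * (rsA f q - rsTau f f1 q * (1 - q) / 2)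
          + C * (w * rsTau f f1 q * √(w * rsTau f f1 q))) := by
  obtain ⟨C, hC0, hC⟩ := slot_both (Y := Y) (ι := ι) hg hq
  refine ⟨C, hC0, fun θ hθ w hw j m => ?_⟩
  set v := w * rsTau f f1 q
  have hv : 0 ≤ v := mul_nonneg hw.1 (hg.rsTau_ge ⟨hq.1, hq.2.le⟩).2.le
  have h := slots_upper hg.pot.cf hg.bd (sys1 θ) θ θ hw.1 hw.2 hv
    (b := m * v) (by positivity) (fun u => (hC θ hθ w hw.1 u).1) j 0
  rwa [fld_comb θ θ θ (c := ((j + m : ℕ) : ℝ) * v) (by positivity) (by positivity) (by positivity)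
    fun x y => by push_cast; ring] at h

/-- The interpolation from below, given a gain in every window. -/
theorem hyb_lower (hg : Good f f1 f2 f3 U V W B κ) (hq : q ∈ Ico (0 : ℝ) 1) :
    ∃ C, 0 ≤ C ∧ ∀ θ : Y → ι → ℝ, (∀ y, dot (θ y) (θ y) = 1) → ∀ w ∈ Icc (0 : ℝ) 1,
      ∀ (n P : ℕ), 0 < P → ∀ N c ε Γ : ℝ, 0 < N → 0 < c → 0 < ε → 0 ≤ Γ →
      ∀ ρ : Fin (P + 1) → ℝ, (∀ i, ρ i ∈ Icc (-1 : ℝ) 1) →
      (∀ i, ∀ R ∈ Icc (-1 : ℝ) 1, |R - ctr P i| ≤ 2 / P → |R - ρ i * q| ≤ 1 - q) →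
      ∀ μ Ψ : Fin (P + 1) → ℕ → ℝ, (∀ i, ∀ j, 0 ≤ Ψ i j) →
      (∀ i, ∀ j m : ℕ, j + m + 1 = n → ∀ R ∈ Icc (-1 : ℝ) 1, |R - ctr P i| ≤ 2 / P →
        j * w * K2 U V B * (R - ρ i * q) ^ 2
          + GP θ (n * (w * rsTau f f1 q))
              ((j : ℝ) / ((j + m : ℕ) : ℝ) * (tauP f f1 q (ρ i) / rsTau f f1 q)
                + (1 - (j : ℝ) / ((j + m : ℕ) : ℝ))) (μ i j)
          - 2 * fld θ (n * (w * rsTau f f1 q)) lse 0 - μ i j * ctr P i + |μ i j| * (2 / P)
          ≤ -(N * c * (ctr P i - q) ^ 2) + Γ + Ψ i j) →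
      fld θ (n * (w * rsTau f f1 q)) lse 0 + n * (w * (rsA f q - rsTau f f1 q * (1 - q) / 2))
          - hyb f θ w (w * rsTau f f1 q) n 0
        ≤ (1 + 2 * (w * K1 U V B / (c * N))) ^ n * ∑ j ∈ Finset.range n,
          (C * (w * rsTau f f1 q * √(w * rsTau f f1 q))
            + w * K1 U V B / c * (ε + (Γ + C * (n * (w * rsTau f f1 q * √(w * rsTau f f1 q))
                + (Fintype.card ι + 1 : ℝ) * √(w * rsTau f f1 q))) / N
              + c * (8 / P) + 4 * c * (P + 1) * exp (-(ε * N))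
              + (∑ i, (Ψ i j + 16 * B * √((n : ℝ) * w + 1)
                  + 8 * √((n : ℝ) * (w * rsTau f f1 q)))) / N)) := by
  obtain ⟨C1, hC1, hone⟩ := slot_both (Y := Y) (ι := ι) hg hq
  obtain ⟨C2, hC2, hup⟩ := hyb_upper (Y := Y) (ι := ι) hg hq
  obtain ⟨C3, hC3, hpair⟩ := pair_upper (Y := Y) (ι := ι) hg hq
  have hm0 := absMom_nonneg
  refine ⟨C1 + 2 * C2 + C3 + 6 * absMom, by positivity, fun θ hθ w hw n P hP N c ε Γ hN hc hε hΓ
    ρ hρ hρw μ Ψ hΨ hgap => ?_⟩
  set C := C1 + 2 * C2 + C3 + 6 * absMom with hC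
  set τ := rsTau f f1 q
  set v := w * τ with hv'
  set lin := rsA f q - τ * (1 - q) / 2
  have hf := hg.pot.cf
  have hB := hg.bd
  have hB0 : 0 ≤ B := (abs_nonneg _).trans (hB 0)
  have hτ : 0 ≤ τ := (hg.rsTau_ge ⟨hq.1, hq.2.le⟩).2.le
  have hv : 0 ≤ v := mul_nonneg hw.1 hτ
  have hK1 : 0 ≤ K1 U V B := by unfold K1; positivity
  set δ := v * √v with hδ
  have hδ0 : 0 ≤ δ := by positivity
  set Φ := fld θ (n * v) lse 0
  set D : ℕ → ℝ := fun j => Φ + j * (w * lin) - hyb f θ w v j (n - j) with hD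
  set A : ℕ → ℝ := fun j => w * K1 U V B / c * (ε + (Γ + C * (n * δ
      + (Fintype.card ι + 1 : ℝ) * √v)) / N + c * (8 / P) + 4 * c * (P + 1) * exp (-(ε * N))
      + (∑ i, (Ψ i j + 16 * B * √((n : ℝ) * w + 1) + 8 * √((n : ℝ) * v))) / N) with hA
  have hstep : ∀ j < n, D (j + 1) ≤ (1 + 2 * (w * K1 U V B / (c * N))) * D j + (C * δ + A j) := by
    intro j hj
    obtain ⟨m, hm⟩ : ∃ m, j + m + 1 = n := ⟨n - j - 1, by omega⟩
    have e1 : n - j = m + 1 := by omega
    have e2 : n - (j + 1) = m := by omega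
    have hjn : (j : ℝ) ≤ n := by exact_mod_cast hj.le
    have hmn : (m : ℝ) ≤ n := by exact_mod_cast (show m ≤ n by omega)
    have hslot := slot_lower hf hB (sys1 θ) θ (sqOv θ q) hw.1 hw.2 hv
      (fun u => (hone θ hθ w hw.1 u).2) j m 0
    have hDlow : -((n : ℝ) * (C2 * δ)) ≤ D j := by
      have := hup θ hθ w hw j (n - j)
      rw [Nat.add_sub_cancel' hj.le] at this
      have := mul_le_mul_of_nonneg_right hjn (by positivity : 0 ≤ C2 * δ)
      simp only [hD]
      linarith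
    set ev := √v * (Fintype.card ι * absMom)
    have hev0 : 0 ≤ ev := by positivity
    have hh : hyb f θ w v j (m + 1) - ev ≤ hyb f θ w v j m := by
      simp only [hyb]
      rw [sub_le_iff_le_add']
      rw [← Em_affine (w := w) ev 1 (M := j) (fun k => Rk f (sys1 θ) (fld θ (m * v) lse) k 0) |>.trans
        (by ring : ev + 1 * _ = ev + _)]
      refine Em_mono hw.1 hw.2 fun k _ => ?_
      have := Rk_var_near hf hB (sys1 θ) zero_le_one (cbd_unit hθ) (v := (m : ℝ) * v)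
        (v' := ((m + 1 : ℕ) : ℝ) * v) (d := v) (by positivity) hv (by push_cast; ring) k 0
      rw [mul_one] at this
      simp only [one_mul]
      linarith [(abs_le.1 this).2]
    set Dp := Γ + 2 * (D j + n * (C2 * δ)) + n * (C3 * δ) + 6 * ev with hDp
    have hDp0 : 0 ≤ Dp := by
      have : 0 ≤ (n : ℝ) * (C3 * δ) := by positivity
      linarith
    have hmass := mass_bound hf hB θ hθ hP ⟨hq.1, hq.2.le⟩ hw hv (j := j) (m := m) hc hε hDp0 hN
      (fun i => Ψ i j) (fun i => hΨ i j) fun i hi => ?_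
    · have hov : ovq f θ w v q j m ≤ 2 / (c * N) * D j + 1 / c * (ε + (Γ + C * (n * δ
          + (Fintype.card ι + 1 : ℝ) * √v)) / N + c * (8 / P) + 4 * c * (P + 1) * exp (-(ε * N))
          + (∑ i, (Ψ i j + 16 * B * √((n : ℝ) * w + 1) + 8 * √((n : ℝ) * v))) / N) := by
        rw [← mul_le_mul_iff_of_pos_left hc]
        refine hmass.trans (le_of_le_of_eq (?_ : _ ≤ 2 / N * D j + (ε + (Γ + C * (n * δ
          + (Fintype.card ι + 1 : ℝ) * √v)) / N + c * (8 / P) + 4 * c * (P + 1) * exp (-(ε * N))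
          + (∑ i, (Ψ i j + 16 * B * √((n : ℝ) * w + 1) + 8 * √((n : ℝ) * v))) / N)) ?_)
        · have h1 : Dp / N ≤ 2 / N * D j + (Γ + C * (n * δ + (Fintype.card ι + 1 : ℝ) * √v)) / N := by
            rw [div_mul_eq_mul_div, ← add_div]
            refine div_le_div_of_nonneg_right ?_ hN.le
            have : 0 ≤ (n : ℝ) * (C1 * δ) := by positivity
            have : 0 ≤ (n : ℝ) * δ * (6 * absMom) := by positivity
            have : 0 ≤ √v * (C1 + 2 * C2 + C3) * (Fintype.card ι + 1 : ℝ) := by positivity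
            have : 0 ≤ √v * (6 * absMom) := by positivity
            simp only [hDp, hC, ev]
            linarith
          have h2 : (∑ i, (Ψ i j + 16 * B * √((j : ℝ) * w + 1) + 8 * √((m : ℝ) * v))) / N
              ≤ (∑ i, (Ψ i j + 16 * B * √((n : ℝ) * w + 1) + 8 * √((n : ℝ) * v))) / N := by
            refine div_le_div_of_nonneg_right (Finset.sum_le_sum fun i _ => ?_) hN.le
            have g0 : √((j : ℝ) * w + 1) ≤ √((n : ℝ) * w + 1) :=
              sqrt_le_sqrt (by linarith [mul_le_mul_of_nonneg_right hjn hw.1])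
            have g1 := mul_le_mul_of_nonneg_left g0 (by positivity : 0 ≤ 16 * B)
            have g2 := sqrt_le_sqrt (mul_le_mul_of_nonneg_right hmn hv)
            linarith
          linarith
        · field_simp
      have hm1 := mul_le_mul_of_nonneg_left hov (mul_nonneg hw.1 hK1)
      change hyb f θ w v j (m + 1) + _ ≤ hyb f θ w v (j + 1) m + w * K1 U V B * ovq f θ w v q j m
        at hslot
      have hC' : C1 * δ ≤ C * δ := by
        refine mul_le_mul_of_nonneg_right ?_ hδ0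
        rw [hC]; linarith
      have hring : w * K1 U V B * (2 / (c * N) * D j + 1 / c * (ε + (Γ + C * (n * δ
          + (Fintype.card ι + 1 : ℝ) * √v)) / N + c * (8 / P) + 4 * c * (P + 1) * exp (-(ε * N))
          + (∑ i, (Ψ i j + 16 * B * √((n : ℝ) * w + 1) + 8 * √((n : ℝ) * v))) / N))
          = 2 * (w * K1 U V B / (c * N)) * D j + A j := by
        simp only [hA]; ring
      rw [hring] at hm1
      simp only [hD] at hm1 ⊢
      rw [e1] at hm1 ⊢
      rw [e2]
      push_cast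
      linarith
    · set s := win θ P i with hs
      have hmem : ∀ p ∈ s, |ovl θ p - ctr P i| ≤ 2 / P := fun p hp => by
        rw [hs, win, Finset.mem_filter] at hp
        rw [← hp.2]
        exact abs_sub_ctr_le hP (abs_ovl_le hθ p)
      have hR : ∀ p, ovl θ p ∈ Icc (-1 : ℝ) 1 := fun p => abs_le.1 (abs_ovl_le hθ p)
      obtain ⟨p0, hp0, hmax⟩ := s.exists_max_image (fun p => (ovl θ p - ρ i * q) ^ 2) hi
      set σ := (j : ℝ) / ((j + m : ℕ) : ℝ) with hσ
      have hσI : σ ∈ Icc (0 : ℝ) 1 := by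
        refine ⟨by positivity, div_le_one_of_le₀ ?_ (by positivity)⟩
        push_cast; linarith [(Nat.cast_nonneg m : (0 : ℝ) ≤ m)]
      set rt := tauP f f1 q (ρ i) / τ
      have hrt : rt ∈ Icc (-1 : ℝ) 1 := abs_le.1 <| by
        rw [abs_div, abs_of_nonneg hτ]
        exact div_le_one_of_le₀ (tauP_bounds hg hq (hρ i)).1 hτ
      have hρ' : σ * rt + (1 - σ) ∈ Icc (-1 : ℝ) 1 := by
        have a1 := mul_le_mul_of_nonneg_left hrt.1 hσI.1
        have a2 := mul_le_mul_of_nonneg_left hrt.2 hσI.1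
        constructor <;> linarith [hσI.2]
      have heq : ((j + m : ℕ) : ℝ) * (σ * rt + (1 - σ)) = j * rt + m := by
        rcases Nat.eq_zero_or_pos (j + m) with h | h
        · obtain ⟨rfl, rfl⟩ := Nat.add_eq_zero_iff.1 h
          simp
        · have : (0 : ℝ) < ((j + m : ℕ) : ℝ) := by exact_mod_cast h
          rw [hσ]; field_simp; push_cast; ring
      have hp := hpair θ hθ s hi (ρ i) (hρ i) (fun p hp => hρw i _ (hR p) (hmem p hp))
        ((ovl θ p0 - ρ i * q) ^ 2) (μ i j) (ctr P i) (2 / P) hmax hmem w hw j m _ hρ' heq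
      have hg' := hgap i j m hm _ (hR p0) (hmem p0 hp0)
      have hvar : GP θ ((j + m : ℕ) * v) (σ * rt + (1 - σ)) (μ i j)
          ≤ GP θ (n * v) (σ * rt + (1 - σ)) (μ i j) + 4 * ev := by
        have hcb : Cbd (pairVec θ (σ * rt + (1 - σ))) 2 := fun p k => by
          set r := σ * rt + (1 - σ)
          have hr1 : |r| ≤ 1 := abs_le.2 hρ'
          have hs1 : |√(1 - r ^ 2)| ≤ 1 := by
            rw [abs_of_nonneg (sqrt_nonneg _)]
            exact sqrt_le_one.2 (by linarith [sq_nonneg r])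
          rcases k with k | k
          · refine (abs_add_le _ _).trans ?_
            rw [abs_mul]
            linarith [cbd_unit hθ p.1 k, mul_le_mul hr1 (cbd_unit hθ p.2 k) (abs_nonneg _) zero_le_one]
          · show |√(1 - r ^ 2) * θ p.2 k| ≤ 2
            rw [abs_mul]
            linarith [mul_le_mul hs1 (cbd_unit hθ p.2 k) (abs_nonneg _) zero_le_one]
        have := fld_var_near zero_le_two hcb (v := ((j + m : ℕ) : ℝ) * v) (v' := (n : ℝ) * v)
          (by positivity) hv (by rw [← hm]; push_cast; ring) (fun p => μ i j * ovl θ p)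
        simp only [Fintype.card_sum, Nat.cast_add] at this
        simp only [GP, ev, Nat.cast_add]
        linarith [(abs_le.1 this).1]
      have hjC : (j : ℝ) * (C3 * δ) ≤ n * (C3 * δ) := mul_le_mul_of_nonneg_right hjn (by positivity)
      have hn2 : 0 ≤ 2 * ((n : ℝ) * (C2 * δ)) := by positivity
      have hlin : (j : ℝ) * (w * (2 * rsA f q + τ * q - τ + K2 U V B * (ovl θ p0 - ρ i * q) ^ 2)
            + C3 * δ) = 2 * ((j : ℝ) * (w * lin)) + (j : ℝ) * w * K2 U V B * (ovl θ p0 - ρ i * q) ^ 2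
            + j * (C3 * δ) := by
        simp only [lin]; ring
      rw [hlin] at hp
      simp only [hDp, hD, e1]
      linarith
  have hw0 := hw.1
  have hfin := gronwall (by positivity) (a := D) (b := fun j => C * δ + A j) n ?_ ?_ hstep
  · simpa only [hD, hA, Nat.sub_self] using hfin
  · simp only [hD, Nat.sub_zero, Nat.cast_zero, zero_mul, add_zero]
    exact le_of_eq (sub_self Φ)
  · intro j _
    have hs : 0 ≤ ∑ i, (Ψ i j + 16 * B * √((n : ℝ) * w + 1) + 8 * √((n : ℝ) * v)) :=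
      Finset.sum_nonneg fun i _ => by have := hΨ i j; positivity
    simp only [hA]
    have := hw.1
    positivity

end P157.RS.Asm

end
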