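import Vale.Agent.P157.RS.Asm.Defs
import Vale.Agent.P157.RS.Row
import Vale.Agent.P157.RS.Scalar

/-!
# P157, RS assembly: rows replaced by fields for a pair of systems in a window
-/

noncomputable section

open MeasureTheory ProbabilityTheory Real Filter Topology Set
open scoped BigOperators

namespace P157.RS.Asm

open Vale.Agent.P150 (gauss)
open P157 (Em)
open P157.Conc (rsA rsTau)

variable {Y ι : Type*} [Fintype Y] [Nonempty Y] [Fintype ι] {f f1 f2 f3 : ℝ → ℝ}
  {U V W B κ q : ℝ}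

lemma dot_comm' (a b : ι → ℝ) : dot a b = dot b a := by
  simp only [dot, mul_comm]

omit [Fintype Y] [Nonempty Y] in
lemma dot_pairVec (θ : Y → ι → ℝ) {r : ℝ} (hr : r ∈ Icc (-1 : ℝ) 1) (p p' : Y × Y) :
    dot (pairVec θ r p) (pairVec θ r p') = dot (θ p.1) (θ p'.1) + dot (θ p.2) (θ p'.2)
      + r * (dot (θ p.1) (θ p'.2) + dot (θ p.2) (θ p'.1)) := by
  have hs := Real.mul_self_sqrt (show 0 ≤ 1 - r ^ 2 by nlinarith [hr.1, hr.2])
  simp only [dot, pairVec, Fintype.sum_sum_type, Sum.elim_inl, Sum.elim_inr, Finset.mul_sum,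
    ← Finset.sum_add_distrib]
  refine Finset.sum_congr rfl fun i _ => ?_
  linear_combination (θ p.2 i * θ p'.2 i) * hs

omit [Nonempty Y] in
lemma cbd_pairVec {θ : Y → ι → ℝ} (hθ : ∀ y, dot (θ y) (θ y) = 1) {r : ℝ}
    (hr : r ∈ Icc (-1 : ℝ) 1) (p : Y × Y) (i : ι ⊕ ι) : |pairVec θ r p i| ≤ 2 := by
  have h := cbd_unit hθ
  have hr' : |r| ≤ 1 := abs_le.2 hr
  cases i with
  | inl i =>
    simp only [pairVec, Sum.elim_inl]
    refine (abs_add_le _ _).trans ?_
    have h1 := h p.1 i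
    have h2 : |r * θ p.2 i| ≤ 1 := by
      rw [abs_mul]; exact mul_le_one₀ hr' (abs_nonneg _) (h p.2 i)
    linarith
  | inr i =>
    simp only [pairVec, Sum.elim_inr]
    rw [abs_mul, abs_of_nonneg (Real.sqrt_nonneg _)]
    have h1 : √(1 - r ^ 2) ≤ 1 := Real.sqrt_le_one.2 (by nlinarith [sq_nonneg r])
    have h2 := mul_le_one₀ h1 (abs_nonneg _) (h p.2 i)
    linarith

omit [Fintype ι] in
lemma avgI_le' {S : Type*} [Fintype S] [Nonempty S] (u F : S → ℝ) {M : ℝ} (h : ∀ p, F p ≤ M) :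
    avgI u F ≤ M := by
  refine (Finset.sum_le_sum fun p _ => mul_le_mul_of_nonneg_left (h p) (Fld.gw_nonneg u p)).trans_eq ?_
  rw [← Finset.sum_mul, Fld.sum_gw, one_mul]

/-- Upper bound for a pair of systems in a window, with a constant depending only on the sizes.
The multiplier `μ` moves the restriction to the window into the coupling of the two spheres. -/
theorem pair_upper (hg : Good f f1 f2 f3 U V W B κ) (hq : q ∈ Ico (0 : ℝ) 1) :
    ∃ C, 0 ≤ C ∧ ∀ (θ : Y → ι → ℝ), (∀ y, dot (θ y) (θ y) = 1) →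
      ∀ (s : Finset (Y × Y)), s.Nonempty → ∀ ρ ∈ Icc (-1 : ℝ) 1,
      (∀ p ∈ s, |ovl θ p - ρ * q| ≤ 1 - q) →
      ∀ Mq μ R₀ η : ℝ, (∀ p ∈ s, (ovl θ p - ρ * q) ^ 2 ≤ Mq) → (∀ p ∈ s, |ovl θ p - R₀| ≤ η) →
      ∀ w ∈ Icc (0 : ℝ) 1, ∀ (j m : ℕ) (ρ' : ℝ), ρ' ∈ Icc (-1 : ℝ) 1 →
      ((j + m : ℕ) : ℝ) * ρ' = j * (tauP f f1 q ρ / rsTau f f1 q) + m →
        Em w j (fun k => Rk f (sysW θ s) (fld (zsum θ s) (m * (w * rsTau f f1 q)) lse) k 0)
          ≤ GP θ ((j + m : ℕ) * (w * rsTau f f1 q)) ρ' μ - μ * R₀ + |μ| * η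
            + j * (w * (2 * rsA f q + rsTau f f1 q * q - rsTau f f1 q + K2 U V B * Mq)
                + C * (w * rsTau f f1 q * √(w * rsTau f f1 q))) := by
  classical
  have hqI : q ∈ Icc (0 : ℝ) 1 := ⟨hq.1, hq.2.le⟩
  have hT := (hg.rsTau_ge hqI).2
  have hK := (hg.K2_le hqI).1
  have hex : ∀ s : Finset (Y × Y), ∃ C, ∀ _ : s.Nonempty, ∀ z : s → ι ⊕ ι → ℝ,
      (∀ y i, |z y i| ≤ 2) → ∀ v : ℝ, 0 ≤ v → ∀ u : s → ℝ,
      |fld z v lse u - lse u
        - v / 2 * (avgI u (fun y => dot (z y) (z y)) - avgC u fun x y => dot (z x) (z y))|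
        ≤ C * (v * √v) := by
    intro s
    by_cases hs : s.Nonempty
    · have := hs.to_subtype
      obtain ⟨C, hC⟩ := fld_small_unif (Y := s) (κ := ι ⊕ ι) 2
      exact ⟨C, fun _ => hC⟩
    · exact ⟨0, fun h => absurd h hs⟩
  choose Cs hCs using hex
  refine ⟨∑ s, |Cs s|, Finset.sum_nonneg fun _ _ => abs_nonneg _, ?_⟩
  intro θ hθ s hs ρ hρ hR Mq μ R₀ η hMq hη w hw j m ρ' hρ' hsum
  have := hs.to_subtype
  set τ := rsTau f f1 q
  set tp := tauP f f1 q ρ
  set C := ∑ s, |Cs s|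
  set r := tp / τ
  have hr : r ∈ Icc (-1 : ℝ) 1 := abs_le.1 (by
    rw [abs_div, abs_of_pos hT, div_le_one hT]; exact (tauP_bounds hg hq hρ).1)
  have hrτ : τ * r = tp := mul_div_cancel₀ _ hT.ne'
  set z : s → ι ⊕ ι → ℝ := fun p => pairVec θ r p.1
  set v := w * τ
  have hv : 0 ≤ v := mul_nonneg hw.1 hT.le
  set d := w * (2 * rsA f q + τ * q - τ + K2 U V B * Mq) + C * (v * √v)
  have one : ∀ u, w * T f (sysW θ s) lse u + (1 - w) * lse u ≤ fld z v lse u + d := by
    intro u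
    have h1 := row2_upper hg (sysW θ s) (fun p l => by fin_cases l <;> simp [sysW, hθ]) hq hρ
      (fun p => by simpa [sysW, ovl] using hR p.1 p.2) u
    have h2 := (abs_le.1 (hCs s hs z (fun p i => cbd_pairVec hθ hr p.1 i) v hv u)).1
    have h3 : Cs s ≤ C := (le_abs_self _).trans
      (Finset.single_le_sum (f := fun s => |Cs s|) (fun _ _ => abs_nonneg _) (Finset.mem_univ s))
    have h4 := mul_le_mul_of_nonneg_right h3 (mul_nonneg hv (Real.sqrt_nonneg v))
    have h5 : avgI u (fun p => (ovl θ p.1 - ρ * q) ^ 2) ≤ Mq := avgI_le' u _ fun p => hMq p.1 p.2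
    have h5' := mul_le_mul_of_nonneg_left h5 (mul_nonneg hw.1 hK)
    have h6 := mul_le_mul_of_nonneg_left h1 hw.1
    have ei : avgI u (fun p => tp * (ovl θ p.1 - ρ * q) + K2 U V B * (ovl θ p.1 - ρ * q) ^ 2)
        = tp * (avgI u (fun p => ovl θ p.1) - ρ * q)
          + K2 U V B * avgI u (fun p => (ovl θ p.1 - ρ * q) ^ 2) := by
      have e : ρ * q = ∑ p, gw u p * (ρ * q) := by rw [← Finset.sum_mul, Fld.sum_gw, one_mul]
      conv_rhs => arg 1; rw [e]
      simp only [avgI, ← Finset.sum_sub_distrib, Finset.mul_sum, ← Finset.sum_add_distrib]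
      exact Finset.sum_congr rfl fun p _ => by ring
    have ed : avgI u (fun p => dot (z p) (z p)) = 2 + 2 * r * avgI u (fun p => ovl θ p.1) := by
      have e : (2 : ℝ) = ∑ p, gw u p * 2 := by rw [← Finset.sum_mul, Fld.sum_gw, one_mul]
      conv_rhs => arg 1; rw [e]
      simp only [avgI, Finset.mul_sum, ← Finset.sum_add_distrib]
      refine Finset.sum_congr rfl fun p _ => ?_
      simp only [z, dot_pairVec θ hr, hθ, dot_comm' (θ p.1.2) (θ p.1.1), ovl]
      ring
    have ec : avgC u (fun p p' => dot (z p) (z p'))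
        = avgC u (fun p p' => dot (θ p.1.1) (θ p'.1.1)) + avgC u (fun p p' => dot (θ p.1.2) (θ p'.1.2))
          + 2 * r * avgC u (fun p p' => dot (θ p.1.1) (θ p'.1.2)) := by
      have e : avgC u (fun p p' => dot (θ p.1.2) (θ p'.1.1))
          = avgC u (fun p p' => dot (θ p.1.1) (θ p'.1.2)) := by
        simp only [avgC]
        rw [Finset.sum_comm]
        exact Finset.sum_congr rfl fun p _ => Finset.sum_congr rfl fun p' _ => by
          rw [dot_comm' (θ p'.1.2) (θ p.1.1)]; ring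
      rw [two_mul, add_mul]
      conv_rhs => arg 2; arg 2; rw [← e]
      simp only [avgC, Finset.mul_sum, ← Finset.sum_add_distrib]
      exact Finset.sum_congr rfl fun p _ => Finset.sum_congr rfl fun p' _ => by
        simp only [z, dot_pairVec θ hr]; ring
    simp only [sysW, Matrix.cons_val_zero, Matrix.cons_val_one] at h6
    change _ ≤ w * (_ + 2 * rsA f q
      + avgI u (fun p => tp * (ovl θ p.1 - ρ * q) + K2 U V B * (ovl θ p.1 - ρ * q) ^ 2)
      - τ / 2 * (_ - q) - τ / 2 * (_ - q) - tp * (_ - ρ * q)) at h6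
    rw [ei] at h6
    rw [ed, ec] at h2
    simp only [d, v] at h2 h4 ⊢
    rw [← hrτ] at h6
    linear_combination h6 + h2 + h4 + h5'
  have hmv : 0 ≤ (m : ℝ) * v := mul_nonneg (Nat.cast_nonneg m) hv
  have hjv : 0 ≤ (j : ℝ) * v := mul_nonneg (Nat.cast_nonneg j) hv
  have key := slots_upper (f := f) (B := B) hg.pot.cf hg.bd (sysW θ s) z (zsum θ s) (w := w) (v := v)
    (d := d) (b := m * v) hw.1 hw.2 hv hmv one j 0
  refine key.trans (add_le_add ?_ le_rfl)
  rw [fld_comb (zsum θ s) z (fun p : s => pairVec θ ρ' p.1) (c := ((j + m : ℕ) : ℝ) * v) hmv hjv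
    (by positivity) fun p p' => by
      simp only [z, dot_pairVec θ hρ', dot_pairVec θ hr]
      have e : dot (zsum θ s p) (zsum θ s p') = dot (θ p.1.1) (θ p'.1.1) + dot (θ p.1.2) (θ p'.1.2)
          + (dot (θ p.1.1) (θ p'.1.2) + dot (θ p.1.2) (θ p'.1.1)) := by
        simp only [dot, zsum, ← Finset.sum_add_distrib]
        exact Finset.sum_congr rfl fun i _ => by ring
      rw [e]
      have hs' : ((j + m : ℕ) : ℝ) * ρ' = j * r + m := hsum
      push_cast at hs' ⊢
      linear_combination (v * (dot (θ p.1.1) (θ p'.1.2) + dot (θ p.1.2) (θ p'.1.1))) * hs']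
  set V' := ((j + m : ℕ) : ℝ) * v
  have hA := Fld.integrable_fld (Fld.li_lse (Y := s)) (fun p : s => pairVec θ ρ' p.1) V' 0
  have hB' := Fld.integrable_fld (Fld.li_lse (Y := Y × Y)) (pairVec θ ρ') V' fun p => μ * ovl θ p
  calc fld (fun p : s => pairVec θ ρ' p.1) V' lse 0
      ≤ ∫ g, (lse (fun p => μ * ovl θ p + √V' * dot (pairVec θ ρ' p) g) + (-μ * R₀ + |μ| * η))
          ∂gauss (ι ⊕ ι) := integral_mono hA (hB'.add (integrable_const _)) fun g => ?_
    _ = _ := by
        rw [integral_add hB' (integrable_const _), integral_const, probReal_univ, one_smul]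
        unfold GP fld
        ring
  simp only [lse, Pi.zero_apply, zero_add]
  rw [← Real.log_exp (-μ * R₀ + |μ| * η), ← Real.log_mul (Fld.part_pos _).ne' (exp_pos _).ne']
  refine log_le_log (Fld.part_pos (Y := s) _) ?_
  rw [Finset.sum_mul]
  calc ∑ p : s, exp (√V' * dot (pairVec θ ρ' p.1) g)
      = ∑ p ∈ s, exp (√V' * dot (pairVec θ ρ' p) g) := Finset.sum_coe_sort s fun p => exp (√V' * dot (pairVec θ ρ' p) g)
    _ ≤ ∑ p ∈ s, exp (μ * ovl θ p + √V' * dot (pairVec θ ρ' p) g) * exp (-μ * R₀ + |μ| * η) :=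
        Finset.sum_le_sum fun p hp => by
          rw [← exp_add]
          refine exp_le_exp.2 ?_
          have h1 := mul_le_mul_of_nonneg_left (hη p hp) (abs_nonneg μ)
          rw [← abs_mul] at h1
          have h2 := neg_le_of_abs_le h1
          linarith
    _ ≤ _ := Finset.sum_le_sum_of_subset_of_nonneg (Finset.subset_univ s) fun p _ _ => by positivity

end P157.RS.Asm

end
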